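import Vale.Agent.P070.Statement

namespace Vale.Agent.N070

open scoped ComplexOrder

universe u

/-- A state: a linear functional with `φ(1) = 1` and `φ(a* a) ≥ 0`. -/
def IsState {A : Type u} [CStarAlgebra A] (φ : A →ₗ[ℂ] ℂ) : Prop :=
  φ 1 = 1 ∧ ∀ a : A, 0 ≤ φ (star a * a)

/-- A tracial state: a state with `τ(a b) = τ(b a)`. -/
def IsTrace {A : Type u} [CStarAlgebra A] (τ : A →ₗ[ℂ] ℂ) : Prop :=
  IsState τ ∧ ∀ a b : A, τ (a * b) = τ (b * a)

end Vale.Agent.N070
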