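import Vale.Agent.N070.Trace

/-! A simple separable algebra sits in a counterexample with the same traces. -/

set_option linter.all false

namespace Vale.Agent.N070

open scoped InnerProductSpace ComplexOrder
open Filter Topology Vale.Agent.P070 Vale.Agent.P070.Key

universe u v w

section
variable {H K : Type u}
  [NormedAddCommGroup H] [InnerProductSpace ℂ H] [CompleteSpace H]
  [NormedAddCommGroup K] [InnerProductSpace ℂ K] [CompleteSpace K]

/-- good pairs inside the double commutant of the base -/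
def Good' (P : Op H →⋆ₐ[ℂ] Op K) (A0 : StarSubalgebra ℂ (Op H)) (k0 : Op H)
    (B : StarSubalgebra ℂ (Op H)) (k u : Op H) : Prop :=
  Good P k0 1 B k u ∧ u ∈ cc A0 ∧ (∀ x : H, k x = 0 → x = 0) ∧ k * u ∈ B

theorem isClosed_cc (G : StarSubalgebra ℂ (Op H)) : IsClosed (cc G : Set (Op H)) := by
  rw [cc, StarSubalgebra.coe_centralizer]
  exact Set.isClosed_centralizer _

theorem det_down {P : Op H →⋆ₐ[ℂ] Op K} (hP : IsUltraRep P) {κ : Op H} {G : Set (Op H)}
    (hd : Det P κ G) : ∀ a ∈ G, ∃ c : ℂ, ∀ z w : H, κ z = 0 → κ w = 0 →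
      ⟪w, a z⟫_ℂ = c * ⟪w, z⟫_ℂ := by
  obtain ⟨j, hj1, hj2⟩ := exists_const hP
  have hj00 : j 0 = 0 := by
    have := hj1 0 0
    rw [inner_zero_left] at this
    exact inner_self_eq_zero.1 this
  intro a ha
  obtain ⟨c, hc⟩ := hd a ha
  refine ⟨c, fun z w hz hw => ?_⟩
  have := hc (j z) (j w) (by rw [hj2, hz, hj00]) (by rw [hj2, hw, hj00])
  rw [hj2, hj1, hj1] at this
  exact this

theorem ne_zero_of_norm {E : Type*} [NormedAddCommGroup E] {x : E} (h : ‖x‖ = 1) : x ≠ 0 := by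
  intro h0
  rw [h0, norm_zero] at h
  exact zero_ne_one h

theorem of_base {A0 : StarSubalgebra ℂ (Op H)} (hA0 : IsClosed (A0 : Set (Op H)))
    (hc : ∃ s : Set (Op H), s.Countable ∧ A0 = (StarAlgebra.adjoin ℂ s).topologicalClosure)
    (hsimple : ∀ (L : Type u) [NormedAddCommGroup L] [InnerProductSpace ℂ L] [CompleteSpace L]
      [Nontrivial L] (σ : A0 →⋆ₐ[ℂ] Op L), Function.Injective σ)
    (hinj : ∀ κ ∈ cc A0, (∀ a ∈ A0, ∃ c : ℂ, ∀ z w : H, κ z = 0 → κ w = 0 →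
      ⟪w, a z⟫_ℂ = c * ⟪w, z⟫_ℂ) → ∀ z, κ z = 0 → z = 0)
    {P : Op H →⋆ₐ[ℂ] Op K} (hP : IsUltraRep P) {k0 : Op H} (hk0 : k0 ∈ A0) (hk0n : 0 ≤ k0)
    (hk01 : ‖k0‖ ≤ 1) (hdet : Det P k0 A0) {ξ : K} (hξ : ‖ξ‖ = 1) (hξk : P k0 ξ = 0) :
    ∃ (A : StarSubalgebra ℂ (Op H)) (_ : IsClosed (A : Set (Op H))),
      A0 ≤ A ∧ A ≤ cc A0 ∧ A ≤ apxAlg A0 ∧ Vale.Agent.P070.PropertyN.{u, v} A := by
  have hξ0 : ξ ≠ 0 := ne_zero_of_norm hξ
  obtain ⟨ι, _, _, k, u, hT, hmax⟩ := exists_max_tower A0 (Good' P A0 k0)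
    (fun B k u h => h.1.notMem hξk hξ0)
  have T : IsTower P A0 k0 1 k u := ⟨hk0, hk0n, hdet, fun i => (hT i).1⟩
  have hcl := gen_isClosed A0 u Set.univ
  have hk0A : k0 ∈ gen A0 u Set.univ := le_gen A0 u _ hk0
  have hcc : gen A0 u Set.univ ≤ cc A0 :=
    gen_le A0 u (isClosed_cc A0) le_cc fun i _ => (hT i).2.1
  have inj0 : ∀ x : H, k0 x = 0 → x = 0 := hinj k0 (le_cc hk0) (det_down hP hdet)
  have hapx : gen A0 u Set.univ ≤ apxAlg A0 := tower_apx (k := k) hk0 hk0n inj0 fun i =>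
    ⟨(hT i).1.k_mem, (hT i).1.k_nonneg, (hT i).2.2.1, (hT i).1.uk_mem, (hT i).2.2.2⟩
  have hdet0 := tower_det0 hA0 T
  have faith : ∀ ζ : K, ζ ≠ 0 → ∀ a (ha : a ∈ gen A0 u Set.univ),
      (∀ b ∈ gen A0 u Set.univ, P a (P b ζ) = 0) → a = 0 := by
    intro ζ hζ a ha h
    obtain ⟨Kf, _, _, _, ρ, j, x, hjx, hj, hdense⟩ := exists_cyclic P (gen A0 u Set.univ) ζ
    have hnt : Nontrivial Kf := ⟨⟨x, 0, fun h0 => hζ (by rw [← hjx, h0, map_zero])⟩⟩
    have hρ := inj_of_apx hA0 hcl (le_gen A0 u _) hapx ρ (hsimple Kf _)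
    have h1 : ρ ⟨a, ha⟩ = 0 := by
      ext y
      refine hdense.induction_on (p := fun y => ρ ⟨a, ha⟩ y = (0 : Op Kf) y) y ?_ ?_
      · exact isClosed_eq (ρ ⟨a, ha⟩).continuous continuous_const
      · intro b
        apply j.injective
        rw [hj, hj, hjx, h b b.2]
        simp
    have h2 : (⟨a, ha⟩ : gen A0 u Set.univ) = 0 := hρ (by rw [h1, map_zero])
    exact congrArg Subtype.val h2
  refine ⟨gen A0 u Set.univ, hcl, le_gen A0 u _, hcc, hapx, ?_⟩
  have hnt : Nontrivial (gen A0 u Set.univ) := by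
    refine ⟨⟨0, 1, fun h => hξ0 ?_⟩⟩
    have h1 : (0 : Op H) = 1 := congrArg Subtype.val h
    have h2 : P 1 ξ = ξ := by rw [map_one]; rfl
    rw [← h2, ← h1, map_zero]; rfl
  have hconst : ∀ a : gen A0 u Set.univ, DetAt P k0 (a : Op H) ⟪ξ, P (a : Op H) ξ⟫_ℂ := by
    intro a
    obtain ⟨c, hc⟩ := hdet0 a a.2
    have h1 := hc ξ ξ hξk hξk
    have h2 : ⟪ξ, ξ⟫_ℂ = 1 := by rw [inner_self_eq_norm_sq_to_K, hξ]; norm_num
    rw [h2, mul_one] at h1
    rw [h1]
    exact hc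
  refine propertyN_of_determined (B := gen A0 u Set.univ) ⟨k0, hk0A⟩
    (fun b => ⟪ξ, P (b : Op H) ξ⟫_ℂ) ?_ ?_
  · intro L _ _ _ π b z w hz hw
    exact det_transfer hP _ hcl hk0A hk0n (hconst b) π z w hz hw
  · intro L _ _ _ π hL hirr
    obtain ⟨y, hy⟩ := exists_ne (0 : L)
    set η : L := ((‖y‖⁻¹ : ℝ) : ℂ) • y with hηdef
    have hη : ‖η‖ = 1 := by rw [hηdef, norm_smul]; simp [hy]
    have hη0 : η ≠ 0 := ne_zero_of_norm hη
    obtain ⟨κ, hκ0, hκ1, hκη, hκd⟩ := reflect hA0 hc T π hirr η hη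
    have hκmem : (κ : Op H) ∈ gen A0 u Set.univ := κ.2
    by_cases hI : Ineq P k0 (κ : Op H) (gen A0 u Set.univ)
    · exfalso
      apply hmax
      have injκ : ∀ x : H, (κ : Op H) x = 0 → x = 0 :=
        hinj κ (hcc hκmem) (det_down hP (hκd.mono (le_gen A0 u _)))
      obtain ⟨ζ, hζ, hζk⟩ := exists_ker_of_rep hP _ hcl hκmem hκ0 π hη0 hκη
      have hζ0 : ζ ≠ 0 := ne_zero_of_norm hζ
      have C : Conf P (gen A0 u Set.univ) k0 (κ : Op H) ξ ζ :=
        { k1_mem := hk0A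
          k2_mem := hκmem
          k1_nonneg := hk0n
          k2_nonneg := hκ0
          k1_norm := hk01
          k2_norm := hκ1
          det1 := hdet0
          det2 := hκd
          ineq := hI
          ξ_norm := hξ
          ζ_norm := hζ
          ξ_ker := hξk
          ζ_ker := hζk
          full1 := by
            intro n
            by_contra hcon
            push Not at hcon
            have h1 := faith ξ hξ0 _ (cutOp_mem _ hcl hκmem n) hcon
            have h2 := cutOp_fix P hκ0 n hζk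
            rw [h1, map_zero, zero_apply] at h2
            exact hζ0 h2.symm
          full2 := by
            intro n
            by_contra hcon
            push Not at hcon
            have h1 := faith ζ hζ0 _ (cutOp_mem _ hcl hk0A n) hcon
            have h2 := cutOp_fix P hk0n n hξk
            rw [h1, map_zero, zero_apply] at h2
            exact hξ0 h2.symm }
      obtain ⟨u', hu', huk, hku, hcomm, hm, hm'⟩ := key_construction hP _ hcl C inj0 injκ
      refine ⟨κ, u', ?_, ?_, injκ, hku⟩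
      · exact
          { k_mem := hκmem
            k_nonneg := hκ0
            det := hκd
            ineq := hI
            u_unitary := hu'
            u_comm := by
              rw [StarSubalgebra.mem_centralizer_iff]
              intro g hg
              rw [Set.mem_singleton_iff] at hg
              subst hg
              simp
            uk_mem := huk
            map := hm
            map' := hm' }
      · exact mem_cc_iff.2 fun T hT => hcomm T fun a ha => mem_cc_iff.1 (hcc ha) T hT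
    · exact step5 hP _ hcl hk0A hκmem hk0n hκ0 hκd hI π η hη hκη

theorem exists_k0 [Nontrivial H] {A0 : StarSubalgebra ℂ (Op H)} (hA0 : IsClosed (A0 : Set (Op H)))
    (hc : ∃ s : Set (Op H), s.Countable ∧ A0 = (StarAlgebra.adjoin ℂ s).topologicalClosure)
    {P : Op H →⋆ₐ[ℂ] Op K} (hP : IsUltraRep P) :
    ∃ k0 ∈ A0, 0 ≤ k0 ∧ ‖k0‖ ≤ 1 ∧ Det P k0 A0 ∧ ∃ ξ : K, ‖ξ‖ = 1 ∧ P k0 ξ = 0 := by
  let u : Fin 0 → Op H := fun i => i.elim0
  have T : IsTower P A0 1 1 u u := by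
    refine ⟨one_mem _, zero_le_one, ?_, fun i => i.elim0⟩
    intro x _
    refine ⟨0, fun z w hz hw => ?_⟩
    rw [map_one] at hz
    have hz' : z = 0 := hz
    rw [hz', map_zero, inner_zero_right, mul_zero]
  have hcl := gen_isClosed A0 u Set.univ
  have hle : gen A0 u Set.univ ≤ A0 := gen_le A0 u hA0 le_rfl fun i => i.elim0
  have h1 : (1 : gen A0 u Set.univ) ∉ (⊥ : Submodule ℂ (gen A0 u Set.univ)) := by
    rw [Submodule.mem_bot]
    intro h
    have h1 : (1 : Op H) = 0 := congrArg Subtype.val h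
    exact one_ne_zero h1
  obtain ⟨L, _, _, _, π, hπ, -⟩ := H500.exists_irrep_killing (A := gen A0 u Set.univ) ⊥
    (by simp) (by simp) (by simp) h1
  have hπ' : Vale.Agent.P070.IsIrred (A := gen A0 u Set.univ) (L := L) π := by
    refine ⟨?_, hπ.2⟩
    obtain ⟨a, x, hax⟩ := hπ.1
    refine ⟨a, fun h => hax ?_⟩
    have h1 : Naimark.Rep.op π a = 0 := h
    rw [h1]
    rfl
  have hL := hπ.nontrivial
  obtain ⟨y, hy⟩ := exists_ne (0 : L)
  set η : L := ((‖y‖⁻¹ : ℝ) : ℂ) • y with hηdef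
  have hη : ‖η‖ = 1 := by rw [hηdef, norm_smul]; simp [hy]
  obtain ⟨κ, hκ0, hκ1, hκη, hκd⟩ := reflect hA0 hc T hπ'.toUnital hπ'.2 η hη
  exact ⟨κ, hle κ.2, hκ0, hκ1, hκd.mono (le_gen A0 u _),
    exists_ker_of_rep hP _ hcl κ.2 hκ0 hπ'.toUnital (ne_zero_of_norm hη) hκη⟩

end

theorem propertyN_conv {B : Type u} [CStarAlgebra B] (hN : Vale.Agent.P070.PropertyN.{u, v} B) :
    Naimark.PropertyN.{u, v} B := by
  have conv : ∀ {M : Type v} [NormedAddCommGroup M] [InnerProductSpace ℂ M] [CompleteSpace M]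
      (σ : Naimark.Rep B M), Naimark.IsIrred σ → Vale.Agent.P070.IsIrred (A := B) (L := M) σ := by
    intro M _ _ _ σ hσ
    refine ⟨?_, hσ.2⟩
    obtain ⟨a, x, hax⟩ := hσ.1
    refine ⟨a, fun h => hax ?_⟩
    have h1 : Naimark.Rep.op σ a = 0 := h
    rw [h1]
    rfl
  refine ⟨hN.1, ?_⟩
  intro L M _ _ _ _ _ _ π σ hπ hσ
  exact hN.2 L M π σ (conv π hπ) (conv σ hσ)

theorem not_compacts {B : Type u} [CStarAlgebra B] (hinf : ¬ FiniteDimensional ℂ B) :
    ¬ Naimark.IsCompacts.{u, w} B := by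
  rintro ⟨L, _, _, _, g, h1, h2⟩
  refine not_isCompacts hinf ⟨L, inferInstance, inferInstance, inferInstance, g, h1, ?_⟩
  ext T
  exact (h2 T).symm

theorem injective_of_simple {D : Type u} [CStarAlgebra D] (hs : Naimark.IsSimpleAlg D)
    {L : Type v} [NormedAddCommGroup L] [InnerProductSpace ℂ L] [CompleteSpace L] [Nontrivial L]
    (σ : D →⋆ₐ[ℂ] Op L) : Function.Injective σ := by
  have hσc : Continuous σ := AddMonoidHomClass.continuous_of_bound σ 1 (by
    simpa only [one_mul] using NonUnitalStarAlgHom.norm_apply_le σ)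
  let I : Submodule ℂ D := LinearMap.ker σ.toAlgHom.toLinearMap
  have hI : ∀ a, a ∈ I ↔ σ a = 0 := fun a => Iff.rfl
  rcases hs.2 I (isClosed_eq hσc continuous_const) (by
    intro a b hb
    rw [hI] at hb
    rw [hI, hI, map_mul, map_mul, hb, mul_zero, zero_mul]
    exact ⟨rfl, rfl⟩) with h | h
  · rw [injective_iff_map_eq_zero]
    intro a ha
    have : a ∈ I := ha
    rwa [h, Submodule.mem_bot] at this
  · exfalso
    have h1 : (1 : D) ∈ I := by rw [h]; trivial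
    rw [hI, map_one] at h1
    exact one_ne_zero h1

/-- The embedding theorem for algebras with a trace. -/
theorem embed_traces {D : Type u} [CStarAlgebra D] [TopologicalSpace.SeparableSpace D]
    (hs : Naimark.IsSimpleAlg D) (hinf : ¬ FiniteDimensional ℂ D) {τ0 : D →ₗ[ℂ] ℂ}
    (h0 : IsTrace τ0) :
    ∃ (A : Type u) (_ : CStarAlgebra A) (f : D →⋆ₐ[ℂ] A),
      Naimark.PropertyN.{u, v} A ∧ ¬ Naimark.IsCompacts.{u, w} A ∧ Function.Injective f ∧
      ∀ τ : D →ₗ[ℂ] ℂ, IsTrace τ → ∃ σ : A →ₗ[ℂ] ℂ, IsTrace σ ∧ (∀ d, σ (f d) = τ d) ∧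
        ∀ φ : A →ₗ[ℂ] ℂ, IsState φ → (∀ d, φ (f d) = τ d) → φ = σ := by
  classical
  let T := {τ : D →ₗ[ℂ] ℂ // IsTrace τ}
  choose L i1 i2 i3 σ z hd hz using fun τ : T => gns τ.2.1
  let θ : D →⋆ₐ[ℂ] Op (lp L 2) := H443.dsum σ
  let η : T → lp L 2 := fun τ => lp.single 2 τ (z τ)
  have hin : ∀ τ a (v : lp L 2), ⟪θ a (η τ), v⟫_ℂ = ⟪σ τ a (z τ), v τ⟫_ℂ := by
    intro τ a v
    have h1 : ⟪θ a (η τ), v⟫_ℂ = ⟪η τ, θ (star a) v⟫_ℂ := by
      rw [← inner_star_left, map_star, star_star]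
    rw [h1]
    have h2 : ⟪η τ, θ (star a) v⟫_ℂ = ⟪z τ, θ (star a) v τ⟫_ℂ := lp.inner_single_left τ (z τ) _
    rw [h2, H443.dsum_apply, ← inner_star_left, map_star, star_star]
  have hst : ∀ τ a, ⟪η τ, θ a (η τ)⟫_ℂ = τ.1 a := by
    intro τ a
    have h2 : ⟪η τ, θ a (η τ)⟫_ℂ = ⟪z τ, θ a (η τ) τ⟫_ℂ := lp.inner_single_left τ (z τ) _
    have h3 : η τ τ = z τ := by
      show (lp.single 2 τ (z τ) : lp L 2) τ = z τ
      rw [lp.single_apply, Pi.single_eq_same]
    rw [h2, H443.dsum_apply, h3, hz]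
  have hη1 : ∀ τ, ‖η τ‖ = 1 := by
    intro τ
    apply norm_eq_one_of
    have := hst τ 1
    rwa [map_one, τ.2.1.1] at this
  have htv : ∀ τ, IsTV θ (η τ) := fun τ a b => by rw [hst, hst, τ.2.2]
  have htot : ∀ v : lp L 2, (∀ η, IsTV θ η → ∀ a, ⟪θ a η, v⟫_ℂ = 0) → v = 0 := by
    intro v hv
    ext τ
    have h1 : ∀ x : L τ, ⟪x, v τ⟫_ℂ = 0 := by
      intro x
      refine (hd τ).induction_on (p := fun x => ⟪x, v τ⟫_ℂ = 0) x
        (isClosed_eq (by fun_prop) continuous_const) fun a => ?_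
      rw [← hin, hv _ (htv τ)]
    exact inner_self_eq_zero.1 (h1 _)
  have hnt : Nontrivial (lp L 2) := ⟨⟨η ⟨τ0, h0⟩, 0, ne_zero_of_norm (hη1 _)⟩⟩
  have hθ : Function.Injective θ := injective_of_simple hs θ
  have hθc : Continuous θ := AddMonoidHomClass.continuous_of_bound θ 1 (by
    simpa only [one_mul] using NonUnitalStarAlgHom.norm_apply_le θ)
  have hA0 : IsClosed (θ.range : Set (Op (lp L 2))) :=
    (NonUnitalStarAlgHom.isometry θ hθ).isClosedEmbedding.isClosed_range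
  have hc : ∃ s : Set (Op (lp L 2)), s.Countable ∧
      θ.range = (StarAlgebra.adjoin ℂ s).topologicalClosure := by
    have := hs.1
    obtain ⟨x, hx⟩ := TopologicalSpace.exists_dense_seq D
    refine ⟨θ '' Set.range x, (Set.countable_range x).image _, le_antisymm ?_ ?_⟩
    · rintro _ ⟨d, rfl⟩
      refine hx.induction_on (p := fun d => θ d ∈
        (StarAlgebra.adjoin ℂ (θ '' Set.range x)).topologicalClosure) d ?_ ?_
      · exact (StarSubalgebra.isClosed_topologicalClosure _).preimage hθc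
      · intro n
        exact StarSubalgebra.le_topologicalClosure _
          (StarAlgebra.subset_adjoin ℂ _ ⟨x n, ⟨n, rfl⟩, rfl⟩)
    · refine StarSubalgebra.topologicalClosure_minimal ?_ hA0
      refine StarAlgebra.adjoin_le ?_
      rintro _ ⟨d, -, rfl⟩
      exact ⟨d, rfl⟩
  obtain ⟨K, _, _, _, P, hP⟩ := exists_ultraRep (lp L 2)
  obtain ⟨k0, hk0, hk0n, hk01, hdet, ξ, hξ, hξk⟩ := exists_k0 hA0 hc hP
  obtain ⟨A, hA, hle, hcc, hapx, hN⟩ := of_base.{u, v} hA0 hc (by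
    intro M _ _ _ _ ρ
    have h1 := injective_of_simple hs (ρ.comp θ.rangeRestrict)
    rintro ⟨_, a, rfl⟩ ⟨_, b, rfl⟩ hab
    have h2 : a = b := h1 hab
    subst h2
    rfl) (fun κ hκ hd => inj_of_total hs hinf htot hκ hd) hP hk0 hk0n hk01 hdet hξ hξk
  let f : D →⋆ₐ[ℂ] A := StarAlgHom.codRestrict θ A fun d => hle ⟨d, rfl⟩
  have hf : Function.Injective f := fun a b hab => hθ (congrArg Subtype.val hab)
  have hinfA : ¬ FiniteDimensional ℂ A := fun hfin =>
    hinf (FiniteDimensional.of_injective f.toAlgHom.toLinearMap hf)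
  refine ⟨A, inferInstance, f, propertyN_conv hN, not_compacts hinfA, hf, fun τ hτ => ?_⟩
  let ω : A →ₗ[ℂ] ℂ :=
    { toFun := fun a => ⟪η ⟨τ, hτ⟩, (a : Op (lp L 2)) (η ⟨τ, hτ⟩)⟫_ℂ
      map_add' := fun a b => by
        rw [← inner_add_right]; rfl
      map_smul' := fun c a => by
        rw [RingHom.id_apply, smul_eq_mul, ← inner_smul_right]; rfl }
  have hω : ∀ a : A, ω a = ⟪η ⟨τ, hτ⟩, (a : Op (lp L 2)) (η ⟨τ, hτ⟩)⟫_ℂ := fun a => rfl
  refine ⟨ω, ⟨⟨?_, ?_⟩, ?_⟩, fun d => hst ⟨τ, hτ⟩ d, ?_⟩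
  · have := hst ⟨τ, hτ⟩ 1
    rw [map_one, hτ.1.1] at this
    exact this
  · intro a
    have : ω (star a * a) = ⟪η ⟨τ, hτ⟩, (star (a : Op (lp L 2)) * a) (η ⟨τ, hτ⟩)⟫_ℂ := rfl
    rw [this, inner_star_mul, inner_self_eq_norm_sq_to_K]
    have h2 := Complex.zero_le_real.2 (sq_nonneg ‖(a : Op (lp L 2)) (η ⟨τ, hτ⟩)‖)
    rwa [Complex.ofReal_pow] at h2
  · intro a b
    exact (htv ⟨τ, hτ⟩).comm (hcc a.2) (hcc b.2)
  · intro φ hφ hφτ
    ext a
    refine state_eq_of_apx hle hapx hφ (hη1 ⟨τ, hτ⟩) ?_ a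
    rintro _ ⟨d, rfl⟩
    exact (hφτ d).trans (hst ⟨τ, hτ⟩ d).symm

end Vale.Agent.N070
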