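import Vale.Agent.N070.Simplex

/-! The final theorem. -/

set_option linter.all false

namespace Vale.Agent.N070

open scoped InnerProductSpace ComplexOrder
open Filter Topology Vale.Agent.P070

universe v w

theorem mem_of_excise {A : Type} [CStarAlgebra A] {I : Submodule ℂ A}
    (hid : ∀ a : A, ∀ b ∈ I, a * b ∈ I ∧ b * a ∈ I) {x r : A} (hx : x ∈ I) (hrr : r * r = r)
    {t : ℝ} (ht0 : 0 < t) (hen : ‖r * x * r - (t : ℂ) • r‖ < t) : r ∈ I := by
  set e : A := r * x * r - (t : ℂ) • r with he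
  have htc : (t : ℂ) ≠ 0 := by exact_mod_cast ht0.ne'
  have hu : IsUnit (1 - (-(t : ℂ)⁻¹) • e) := by
    refine (Units.oneSub _ ?_).isUnit
    rw [norm_smul, norm_neg, norm_inv, Complex.norm_real, Real.norm_of_nonneg ht0.le,
      inv_mul_lt_iff₀ ht0, mul_one]
    exact hen
  have hmul : (1 - (-(t : ℂ)⁻¹) • e) * r = (t : ℂ)⁻¹ • (r * x * r) := by
    rw [he, sub_mul, one_mul, smul_mul_assoc, sub_mul, smul_mul_assoc, hrr, mul_assoc (r * x), hrr,
      neg_smul, smul_sub, smul_smul, inv_mul_cancel₀ htc, one_smul]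
    abel
  obtain ⟨u, hu⟩ := hu
  have h1 : (1 - (-(t : ℂ)⁻¹) • e) * r ∈ I := by
    rw [hmul]
    exact I.smul_mem _ (hid r _ (hid r x hx).1).2
  have h2 := (hid (↑u⁻¹ : A) _ h1).1
  rwa [← hu, ← mul_assoc, Units.inv_mul, one_mul] at h2

theorem excise_est {A : Type} [CStarAlgebra A] {x y r : A} (hr1 : ‖r‖ ≤ 1) {c t : ℂ}
    (hex : r * y * r = c • r) (hc : ‖c - t‖ ≤ ‖x - y‖) :
    ‖r * x * r - t • r‖ ≤ 2 * ‖x - y‖ := by
  have h1 : r * x * r - t • r = r * (x - y) * r + (c - t) • r := by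
    rw [mul_sub, sub_mul, hex, sub_smul]
    abel
  have h3 : ‖r * (x - y) * r‖ ≤ ‖x - y‖ := by
    calc _ ≤ ‖r‖ * ‖x - y‖ * ‖r‖ := norm_mul₃_le
      _ ≤ 1 * ‖x - y‖ * 1 := by gcongr
      _ = _ := by ring
  have h4 : ‖(c - t) • r‖ ≤ ‖x - y‖ := by
    rw [norm_smul]
    calc _ ≤ ‖x - y‖ * 1 := by gcongr
      _ = _ := mul_one _
  rw [h1]
  refine (norm_add_le _ _).trans ?_
  linarith

namespace Model

variable {X : Type} {xs : ℕ → X}

/-- the base point of the cylinder used for excision -/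
noncomputable def pt (F0 : Om) (k j : ℕ) : Om := ext k (res k F0) + Pi.single j 1

/-- the cylinder -/
def cyl (F0 : Om) (k j : ℕ) : Set Om := {F | res (j + 1) F = res (j + 1) (pt F0 k j)}

theorem cyl_spec {F0 : Om} {k j : ℕ} (hkj : k ≤ j) {F : Om} (hF : F ∈ cyl F0 k j) :
    (∀ i < k, F i = F0 i) ∧ yy xs k F = xs j := by
  have h1 := res_eq_iff.1 hF
  constructor
  · intro i hi
    rw [h1 i (by omega), pt, Pi.add_apply, Pi.single_eq_of_ne (by omega), add_zero]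
    exact dif_pos hi
  · refine yy_eq xs hkj ?_ fun i hi hij => ?_
    · rw [h1 j (by omega), pt, Pi.add_apply, Pi.single_eq_same, supp_ext k _ j hkj, zero_add]
    · rw [h1 i (by omega), pt, Pi.add_apply, Pi.single_eq_of_ne hij.ne, supp_ext k _ i hi,
        zero_add]
      exact zero_ne_one

theorem excise (F0 : Om) {y : Op (L2 Om)} (hy : y ∈ Submodule.span ℂ (W xs)) :
    ∃ k0, ∀ k j, k0 ≤ k → k ≤ j → xs j = yy xs k F0 →
      op 0 (cyl F0 k j) * y * op 0 (cyl F0 k j) = dg F0 y • op 0 (cyl F0 k j) := by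
  induction hy using Submodule.span_induction with
  | mem w hw =>
    obtain ⟨k0, G, s, hG, hs, rfl⟩ := hw
    refine ⟨k0, fun k j hk hkj hx => ?_⟩
    rw [op_mul, op_mul, dg_op, zero_add, add_zero]
    by_cases hG0 : G = 0
    · subst hG0
      have hiff : ∀ F ∈ cyl F0 k j, F ∈ s ↔ F0 ∈ s := by
        intro F hF
        obtain ⟨h1, h2⟩ := cyl_spec (xs := xs) hkj hF
        exact ⟨(hs.mono hk) F F0 h1 (h2.trans hx),
          (hs.mono hk) F0 F (fun i hi => (h1 i hi).symm) (h2.trans hx).symm⟩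
      by_cases h0 : F0 ∈ s
      · rw [if_pos ⟨rfl, h0⟩, one_smul]
        congr 1
        ext F
        simp only [add_zero, Set.mem_inter_iff, Set.mem_setOf_eq]
        exact ⟨fun h => h.2, fun h => ⟨⟨h, (hiff F h).2 h0⟩, h⟩⟩
      · rw [if_neg (fun h => h0 h.2), zero_smul, ← op_empty 0]
        congr 1
        ext F
        simp only [add_zero, Set.mem_inter_iff, Set.mem_setOf_eq, Set.mem_empty_iff_false,
          iff_false]
        exact fun h => h0 ((hiff F h.2).1 h.1.2)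
    · rw [if_neg (fun h => hG0 h.1), zero_smul, ← op_empty G]
      congr 1
      ext F
      simp only [Set.mem_inter_iff, Set.mem_setOf_eq, Set.mem_empty_iff_false, iff_false]
      rintro ⟨⟨h1, -⟩, h2⟩
      apply hG0
      have h3 : res (j + 1) (F + G) = res (j + 1) F := h2.trans h1.symm
      rw [res_add, add_eq_left] at h3
      rw [← ext_res ((hG.mono hk).mono (hkj.trans (Nat.le_succ j))), h3]
      funext i
      simp [ext]
  | zero => exact ⟨0, fun k j _ _ _ => by simp⟩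
  | add a b _ _ ha hb =>
    obtain ⟨k1, h1⟩ := ha
    obtain ⟨k2, h2⟩ := hb
    refine ⟨max k1 k2, fun k j hk hkj hx => ?_⟩
    rw [mul_add, add_mul, h1 k j (le_of_max_le_left hk) hkj hx,
      h2 k j (le_of_max_le_right hk) hkj hx, map_add, add_smul]
  | smul c a _ ha =>
    obtain ⟨k1, h1⟩ := ha
    refine ⟨k1, fun k j hk hkj hx => ?_⟩
    rw [mul_smul_comm, smul_mul_assoc, h1 k j hk hkj hx, map_smul, smul_smul, smul_eq_mul]

theorem nontrivial_DD : Nontrivial (DD xs) := by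
  refine ⟨⟨1, 0, fun h => ?_⟩⟩
  have h1 : (1 : Op (L2 Om)) = 0 := congrArg Subtype.val h
  have h2 := dg_one 0
  rw [h1, map_zero] at h2
  exact zero_ne_one h2

theorem one_mem_of {I : Submodule ℂ (DD xs)}
    (hid : ∀ a : DD xs, ∀ b ∈ I, a * b ∈ I ∧ b * a ∈ I) {n : ℕ} {a : Hd n}
    (hrI : E xs 0 {F | res n F = a} ∈ I) : (1 : DD xs) ∈ I := by
  have hR : Lev xs n {F | res n F = a} := lev_res n a
  rw [← E_univ, ← E_sum (supp_zero n) (lev_univ _)
    (s := fun b : Hd n => {F | F + ext n b ∈ {F | res n F = a}})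
    (fun b => hR.shift (supp_ext _ b)) ?_ (fun _ => Set.subset_univ _)]
  · refine I.sum_mem fun b _ => ?_
    have h1 := (conj_eq (supp_ext _ b) hR).1
    have h2 : E xs (-ext n b) {F | res n F = a} =
        E xs 0 {F | res n F = a} * E xs (-ext n b) Set.univ := by
      rw [E_mul (supp_zero _) hR (supp_ext _ b).neg (lev_univ _)]
      simp
    rw [← h1, h2]
    exact (hid _ _ (hid _ _ hrI).2).1
  · intro F _
    refine ⟨a - res n F, ?_, fun b hb => ?_⟩
    · show res n (F + ext n _) = _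
      rw [res_add, res_ext]; abel
    · have h2 : res n (F + ext n b) = a := hb
      rw [res_add, res_ext] at h2
      rw [← h2]; abel

theorem exists_cyl (hxs : ∀ k y, ∃ j, k ≤ j ∧ xs j = y) (x : DD xs) (F0 : Om) {t : ℝ}
    (ht0 : 0 < t) (hdg : dg F0 (x : Op (L2 Om)) = t) :
    ∃ (n : ℕ) (a : Hd n), ‖E xs 0 {F | res n F = a} * x * E xs 0 {F | res n F = a} -
      (t : ℂ) • E xs 0 {F | res n F = a}‖ < t := by
  obtain ⟨y, hy, hxy⟩ := Metric.mem_closure_iff.1 (DD_closure x.2) (t / 2) (by positivity)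
  rw [dist_eq_norm] at hxy
  obtain ⟨k, hk⟩ := excise F0 hy
  obtain ⟨j, hj1, hj2⟩ := hxs k (yy xs k F0)
  have hR : Lev xs (j + 1) (cyl F0 k j) := lev_res (j + 1) _
  have hex := hk k j le_rfl hj1 hj2
  refine ⟨j + 1, res (j + 1) (pt F0 k j), ?_⟩
  have hrv : (E xs 0 (cyl F0 k j) : Op (L2 Om)) = op 0 (cyl F0 k j) := E_val (supp_zero _) hR
  have h1 := excise_est (x := (x : Op (L2 Om))) (op_norm_le 0 _) hex (t := (t : ℂ)) (by
    rw [← hdg, ← map_sub, norm_sub_rev]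
    exact dg_norm_le _ _)
  rw [← hrv] at h1
  have h2 : ‖E xs 0 (cyl F0 k j) * x * E xs 0 (cyl F0 k j) - (t : ℂ) • E xs 0 (cyl F0 k j)‖ ≤
      2 * ‖(x : Op (L2 Om)) - y‖ := h1
  exact h2.trans_lt (by linarith)

theorem simple (hxs : ∀ k y, ∃ j, k ≤ j ∧ xs j = y) : Naimark.IsSimpleAlg (DD xs) := by
  refine ⟨nontrivial_DD, fun I hI hid => ?_⟩
  by_cases h0 : I = ⊥
  · exact Or.inl h0
  right
  obtain ⟨a, haI, ha0⟩ := (Submodule.ne_bot_iff I).1 h0
  obtain ⟨F0, hF0⟩ : ∃ F0, (a : Op (L2 Om)) (dl F0) ≠ 0 := by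
    by_contra hc
    push Not at hc
    exact ha0 (Subtype.ext (eq_zero_of_dl hc))
  have hxI : star a * a ∈ I := (hid (star a) a haI).1
  have ht0 : 0 < ‖(a : Op (L2 Om)) (dl F0)‖ ^ 2 := by positivity
  obtain ⟨n, b, hb⟩ := exists_cyl hxs (star a * a) F0 ht0 (dg_star_mul F0 _)
  have hrr : E xs 0 {F | res n F = b} * E xs 0 {F | res n F = b} = E xs 0 {F | res n F = b} := by
    rw [E_mul (supp_zero _) (lev_res n b) (supp_zero _) (lev_res n b)]
    simp
  have h1I := one_mem_of hid (mem_of_excise hid hxI hrr ht0 hb)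
  rw [eq_top_iff]
  intro b _
  have := (hid b 1 h1I).1
  rwa [mul_one] at this

theorem separable [Finite X] : TopologicalSpace.SeparableSpace (DD xs) := by
  have hW : (W xs).Countable := by
    refine (Set.countable_iUnion fun k : ℕ => Set.countable_range
      (fun p : Hd k × Set (Hd k × X) =>
        op (ext k p.1) {F | (res k F, yy xs k F) ∈ p.2})).mono ?_
    rintro _ ⟨k, G, s, hG, hs, rfl⟩
    refine Set.mem_iUnion.2 ⟨k, (res k G, (fun F => (res k F, yy xs k F)) '' s), ?_⟩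
    show op (ext k (res k G)) _ = op G s
    rw [ext_res hG]
    congr 1
    ext F
    constructor
    · rintro ⟨F', hF', h⟩
      exact hs F' F (res_eq_iff.1 (congrArg Prod.fst h)) (congrArg Prod.snd h) hF'
    · exact fun h => ⟨F, h, rfl⟩
  exact (isSeparable_adjoin hW).closure.separableSpace

theorem infinite_dim : ¬ FiniteDimensional ℂ (DD xs) := by
  intro hfin
  have hli : LinearIndependent ℂ fun j : ℕ => E xs 0 {F | F j = 1} := by
    refine LinearIndependent.of_pairwise_dual_eq_zero_one _ (fun i =>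
      (dg (Pi.single i 1)).comp (DD xs).toSubalgebra.toSubmodule.subtype) ?_ ?_
    · intro i j hij
      show dg _ (E xs 0 {F | F j = 1} : Op (L2 Om)) = 0
      rw [E_val (supp_zero _) (lev_coord j 1), dg_op, if_neg]
      rintro ⟨-, h⟩
      have h1 : (Pi.single i 1 : Om) j = 1 := h
      rw [Pi.single_eq_of_ne (Ne.symm hij)] at h1
      exact zero_ne_one h1
    · intro i
      show dg _ (E xs 0 {F | F i = 1} : Op (L2 Om)) = 1
      rw [E_val (supp_zero _) (lev_coord i 1), dg_op, if_pos]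
      exact ⟨rfl, Pi.single_eq_same _ _⟩
  exact Module.Finite.not_linearIndependent_of_infinite _ hli

end Model

theorem IsTrace.comp {D A : Type} [CStarAlgebra D] [CStarAlgebra A] (f : D →⋆ₐ[ℂ] A)
    {σ : A →ₗ[ℂ] ℂ} (h : IsTrace σ) : IsTrace (σ.comp f.toAlgHom.toLinearMap) := by
  have e : ∀ d, (σ.comp f.toAlgHom.toLinearMap) d = σ (f d) := fun _ => rfl
  refine ⟨⟨?_, fun a => ?_⟩, fun a b => ?_⟩
  · rw [e, map_one, h.1.1]
  · rw [e, map_mul, map_star]; exact h.1.2 _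
  · rw [e, e, map_mul f, map_mul f, h.2]

theorem isTrace_sum {A : Type} [CStarAlgebra A] {n : ℕ} {τ : Fin n → (A →ₗ[ℂ] ℂ)}
    (h : ∀ i, IsTrace (τ i)) {c : Fin n → ℝ} (h0 : ∀ i, 0 ≤ c i) (h1 : ∑ i, c i = 1) :
    IsTrace (∑ i, (c i : ℂ) • τ i) := by
  refine ⟨⟨?_, fun a => ?_⟩, fun a b => ?_⟩
  · simp only [LinearMap.sum_apply, LinearMap.smul_apply, (h _).1.1, smul_eq_mul, mul_one]
    exact_mod_cast h1
  · simp only [LinearMap.sum_apply, LinearMap.smul_apply, smul_eq_mul]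
    exact Finset.sum_nonneg fun i _ => mul_nonneg (Complex.zero_le_real.2 (h0 i)) ((h i).1.2 a)
  · simp only [LinearMap.sum_apply, LinearMap.smul_apply]
    exact Finset.sum_congr rfl fun i _ => by rw [(h i).2]

theorem embed_all (D : Type) [CStarAlgebra D] [TopologicalSpace.SeparableSpace D]
    (hs : Naimark.IsSimpleAlg D) (hinf : ¬ FiniteDimensional ℂ D) :
    ∃ (A : Type) (_ : CStarAlgebra A) (f : D →⋆ₐ[ℂ] A),
      Naimark.PropertyN.{0, v} A ∧ ¬ Naimark.IsCompacts.{0, w} A ∧ Function.Injective f ∧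
      ∀ τ : D →ₗ[ℂ] ℂ, IsTrace τ → ∃ σ : A →ₗ[ℂ] ℂ, IsTrace σ ∧ (∀ d, σ (f d) = τ d) ∧
        ∀ φ : A →ₗ[ℂ] ℂ, IsState φ → (∀ d, φ (f d) = τ d) → φ = σ := by
  by_cases h : ∃ τ0 : D →ₗ[ℂ] ℂ, IsTrace τ0
  · obtain ⟨τ0, h0⟩ := h
    exact embed_traces hs hinf h0
  · have := hs.1
    obtain ⟨A, _, h1, h2, -, -, -, -, f, hf⟩ := Naimark.embeds_unital.{0, v, w} D
    exact ⟨A, inferInstance, f, h1, h2, hf, fun τ hτ => absurd ⟨τ, hτ⟩ h⟩

theorem no_trace {A : Type} [CStarAlgebra A] {s0 s1 : A} (h00 : star s0 * s0 = 1)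
    (h11 : star s1 * s1 = 1) (h01 : star s0 * s1 = 0) (σ : A →ₗ[ℂ] ℂ) : ¬ IsTrace σ := by
  intro hσ
  have h10 : star s1 * s0 = 0 := by
    have := congrArg star h01
    rwa [star_mul, star_star, star_zero] at this
  set p := s0 * star s0 with hp
  set q := s1 * star s1 with hq
  have hpp : p * p = p := by rw [hp, mul_assoc, ← mul_assoc (star s0), h00, one_mul]
  have hqq : q * q = q := by rw [hq, mul_assoc, ← mul_assoc (star s1), h11, one_mul]
  have hpq : p * q = 0 := by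
    rw [hp, hq, mul_assoc, ← mul_assoc (star s0), h01, zero_mul, mul_zero]
  have hqp : q * p = 0 := by
    rw [hp, hq, mul_assoc, ← mul_assoc (star s1), h10, zero_mul, mul_zero]
  have hps : star p = p := by rw [hp, star_mul, star_star]
  have hqs : star q = q := by rw [hq, star_mul, star_star]
  have h3 : star (1 - p - q) * (1 - p - q) = 1 - p - q := by
    rw [star_sub, star_sub, star_one, hps, hqs]
    simp only [mul_sub, sub_mul, one_mul, mul_one, hpp, hqq, hpq, hqp]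
    abel
  have h4 := hσ.1.2 (1 - p - q)
  rw [h3, map_sub, map_sub, hp, hq, hσ.2 s0, hσ.2 s1, h00, h11, hσ.1.1] at h4
  have h5 := (Complex.nonneg_iff.1 h4).1
  norm_num at h5

theorem traceless_of {H : Type} [NormedAddCommGroup H] [InnerProductSpace ℂ H] [CompleteSpace H]
    [Nontrivial H] {S0 S1 : Op H} (h00 : star S0 * S0 = 1) (h11 : star S1 * S1 = 1)
    (h01 : star S0 * S1 = 0) : ∃ (A : Type) (_ : CStarAlgebra A),
    Naimark.PropertyN.{0, v} A ∧ ¬ Naimark.IsCompacts.{0, w} A ∧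
      ∀ σ : A →ₗ[ℂ] ℂ, ¬ IsTrace σ := by
  let D0 : StarSubalgebra ℂ (Op H) := (StarAlgebra.adjoin ℂ {S0, S1}).topologicalClosure
  have hcl : IsClosed (D0 : Set (Op H)) := StarSubalgebra.isClosed_topologicalClosure _
  have hsep : TopologicalSpace.SeparableSpace D0 :=
    (isSeparable_adjoin (Set.toFinite _).countable).closure.separableSpace
  have hnt : Nontrivial D0 := by
    refine ⟨⟨1, 0, fun h => ?_⟩⟩
    have h1 : (1 : Op H) = 0 := congrArg Subtype.val h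
    exact one_ne_zero h1
  obtain ⟨A, _, h1, h2, -, -, -, -, f, -⟩ := Naimark.embeds_unital.{0, v, w} D0
  have m0 : S0 ∈ D0 := StarSubalgebra.le_topologicalClosure _
    (StarAlgebra.subset_adjoin ℂ _ (by simp))
  have m1 : S1 ∈ D0 := StarSubalgebra.le_topologicalClosure _
    (StarAlgebra.subset_adjoin ℂ _ (by simp))
  have e00 : star (⟨S0, m0⟩ : D0) * ⟨S0, m0⟩ = 1 := Subtype.ext h00
  have e11 : star (⟨S1, m1⟩ : D0) * ⟨S1, m1⟩ = 1 := Subtype.ext h11
  have e01 : star (⟨S0, m0⟩ : D0) * ⟨S1, m1⟩ = 0 := Subtype.ext h01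
  refine ⟨A, inferInstance, h1, h2, no_trace (s0 := f ⟨S0, m0⟩) (s1 := f ⟨S1, m1⟩) ?_ ?_ ?_⟩
  · rw [← map_star, ← map_mul, e00, map_one]
  · rw [← map_star, ← map_mul, e11, map_one]
  · rw [← map_star, ← map_mul, e01, map_zero]

theorem traceless : ∃ (A : Type) (_ : CStarAlgebra A),
    Naimark.PropertyN.{0, v} A ∧ ¬ Naimark.IsCompacts.{0, w} A ∧
      ∀ σ : A →ₗ[ℂ] ℂ, ¬ IsTrace σ := by
  let E : Type := L2 ℕ
  let bE : HilbertBasis ℕ ℂ E := HilbertBasis.ofRepr (LinearIsometryEquiv.refl ℂ (L2 ℕ))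
  obtain ⟨bF⟩ := H443.exists_basis_lp ℕ bE
  have hS : ∀ i j, star (H443.ins bF (bE i) : Op (lp (fun _ : ℕ => E) 2)) * H443.ins bF (bE j) =
      (if i = j then (1 : ℂ) else 0) • (1 : Op (lp (fun _ : ℕ => E) 2)) := by
    intro i j
    have h1 := (H443.sys_of_basis bF).inner (bE i) (bE j)
    rw [orthonormal_iff_ite.1 bE.orthonormal] at h1
    exact h1
  have hnt : Nontrivial (lp (fun _ : ℕ => E) 2) :=
    ⟨⟨bF 0, 0, ne_zero_of_norm (bF.orthonormal.1 0)⟩⟩
  refine traceless_of (S0 := H443.ins bF (bE 0)) (S1 := H443.ins bF (bE 1)) ?_ ?_ ?_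
  · rw [hS, if_pos rfl, one_smul]
  · rw [hS, if_pos rfl, one_smul]
  · rw [hS, if_neg zero_ne_one, zero_smul]

theorem simplex (n : ℕ) : ∃ (A : Type) (_ : CStarAlgebra A) (τ : Fin n → (A →ₗ[ℂ] ℂ)),
    Naimark.PropertyN.{0, v} A ∧ ¬ Naimark.IsCompacts.{0, w} A ∧ LinearIndependent ℂ τ ∧
      ∀ σ : A →ₗ[ℂ] ℂ, IsTrace σ ↔
        ∃ c : Fin n → ℝ, (∀ i, 0 ≤ c i) ∧ ∑ i, c i = 1 ∧ σ = ∑ i, (c i : ℂ) • τ i := by
  rcases Nat.eq_zero_or_pos n with rfl | hn
  · obtain ⟨A, _, h1, h2, h3⟩ := traceless.{v, w}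
    refine ⟨A, inferInstance, fun i => i.elim0, h1, h2, linearIndependent_empty_type, fun σ => ?_⟩
    refine ⟨fun h => absurd h (h3 σ), ?_⟩
    rintro ⟨c, -, h4, -⟩
    simp at h4
  let xs : ℕ → Fin n := fun j => ⟨j % n, Nat.mod_lt j hn⟩
  have hxs : ∀ k y, ∃ j, k ≤ j ∧ xs j = y := by
    intro k y
    refine ⟨y + n * k, ?_, Fin.ext ?_⟩
    · nlinarith
    · show (y + n * k) % n = y
      rw [Nat.add_mul_mod_self_left, Nat.mod_eq_of_lt y.2]
  have := Model.separable (xs := xs)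
  obtain ⟨τ, hτ, hli, hall⟩ := Model.traces hxs
  obtain ⟨A, _, f, h1, h2, -, hext⟩ :=
    embed_all.{v, w} (Model.DD xs) (Model.simple hxs) Model.infinite_dim
  choose τ' hτ' hτ'f _ using fun i => hext (τ i) (hτ i)
  refine ⟨A, inferInstance, τ', h1, h2, ?_, fun σ => ⟨fun hσ => ?_, ?_⟩⟩
  · refine LinearIndependent.of_comp (LinearMap.lcomp ℂ ℂ f.toAlgHom.toLinearMap) ?_
    have : (LinearMap.lcomp ℂ ℂ f.toAlgHom.toLinearMap) ∘ τ' = τ := by
      funext i
      ext d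
      exact hτ'f i d
    rw [this]; exact hli
  · obtain ⟨c, hc0, hc1, hc⟩ := hall _ (hσ.comp f)
    obtain ⟨ρ, -, -, hρ⟩ := hext _ (hσ.comp f)
    refine ⟨c, hc0, hc1, (hρ σ hσ.1 fun d => rfl).trans
      (hρ _ (isTrace_sum hτ' hc0 hc1).1 fun d => ?_).symm⟩
    rw [hc]
    simp only [LinearMap.sum_apply, LinearMap.smul_apply, hτ'f]
  · rintro ⟨c, hc0, hc1, rfl⟩
    exact isTrace_sum hτ' hc0 hc1

theorem question : ∃ (A : Type) (_ : NonUnitalCStarAlgebra A),
    Naimark.PropertyN.{0, v} A ∧ ¬ Naimark.IsCompacts.{0, w} A := by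
  obtain ⟨A, _, h1, h2, -⟩ := Naimark.main.{v, w}
  exact ⟨A, inferInstance, h1, h2⟩

end Vale.Agent.N070
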