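import Vale.Agent.N070.Embed

/-! A simple AF algebra whose traces form a simplex with a given finite set of vertices. -/

set_option linter.all false

namespace Vale.Agent.N070.Model

open scoped InnerProductSpace ComplexOrder
open Filter Topology Vale.Agent.P070 Vale.Agent.N070

/-- sizes of the blocks -/
def m (j : ℕ) : ℕ := 2 ^ (j + 1)

theorem one_lt_m (j : ℕ) : 1 < m j := Nat.one_lt_two_pow (Nat.succ_ne_zero j)

instance (j : ℕ) : Fact (1 < m j) := ⟨one_lt_m j⟩
instance (j : ℕ) : NeZero (m j) := ⟨(lt_trans zero_lt_one (one_lt_m j)).ne'⟩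

abbrev Om := (j : ℕ) → ZMod (m j)
abbrev Hd (k : ℕ) := (j : Fin k) → ZMod (m j)

def res (k : ℕ) (F : Om) : Hd k := fun j => F j
def ext (k : ℕ) (a : Hd k) : Om := fun j => if h : j < k then a ⟨j, h⟩ else 0
def Supp (k : ℕ) (G : Om) : Prop := ∀ j, k ≤ j → G j = 0

theorem supp_ext (k : ℕ) (a : Hd k) : Supp k (ext k a) := fun j hj => dif_neg (not_lt.2 hj)

theorem res_ext (k : ℕ) (a : Hd k) : res k (ext k a) = a := by
  funext j
  exact dif_pos j.2

theorem ext_res {k : ℕ} {G : Om} (h : Supp k G) : ext k (res k G) = G := by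
  funext j
  by_cases hj : j < k
  · exact dif_pos hj
  · rw [h j (not_lt.1 hj)]; exact dif_neg hj

theorem res_add (k : ℕ) (F G : Om) : res k (F + G) = res k F + res k G := rfl

theorem ext_add (k : ℕ) (a b : Hd k) : ext k (a + b) = ext k a + ext k b := by
  funext j
  by_cases hj : j < k
  · simp only [ext, dif_pos hj, Pi.add_apply]
  · simp only [ext, dif_neg hj, Pi.add_apply, add_zero]

theorem res_eq_iff {k : ℕ} {F F' : Om} : res k F = res k F' ↔ ∀ j < k, F j = F' j :=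
  ⟨fun h j hj => congrFun h ⟨j, hj⟩, fun h => funext fun j => h j j.2⟩

theorem Supp.mono {k n : ℕ} {G : Om} (h : Supp k G) (hkn : k ≤ n) : Supp n G :=
  fun j hj => h j (hkn.trans hj)
theorem Supp.add {k : ℕ} {G G' : Om} (h : Supp k G) (h' : Supp k G') : Supp k (G + G') :=
  fun j hj => by rw [Pi.add_apply, h j hj, h' j hj, add_zero]
theorem Supp.neg {k : ℕ} {G : Om} (h : Supp k G) : Supp k (-G) :=
  fun j hj => by rw [Pi.neg_apply, h j hj, neg_zero]
theorem supp_zero (k : ℕ) : Supp k 0 := fun _ _ => rfl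
theorem supp_single (k : ℕ) (c : ZMod (m k)) : Supp (k + 1) (Pi.single k c) :=
  fun j hj => Pi.single_eq_of_ne (by omega) _

/-! ### operators -/

theorem ind_norm (s : Set Om) (F : Om) : ‖s.indicator (fun _ => (1 : ℂ)) F‖ ≤ 1 := by
  by_cases h : F ∈ s <;> simp [h]

noncomputable def op (G : Om) (s : Set Om) : Op (L2 Om) :=
  wop (Equiv.addRight G) (s.indicator fun _ => 1) (ind_norm s)

theorem op_apply (G : Om) (s : Set Om) (z : L2 Om) (F : Om) :
    op G s z F = s.indicator (fun _ => (1 : ℂ)) F * z (F + G) := rfl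

theorem op_mul (G G' : Om) (s s' : Set Om) :
    op G s * op G' s' = op (G + G') (s ∩ {F | F + G ∈ s'}) := by
  ext z F
  rw [mul_apply_eq_comp, op_apply, op_apply, op_apply, add_assoc]
  by_cases h : F ∈ s <;> by_cases h' : F + G ∈ s' <;> simp [h, h']

theorem op_star (G : Om) (s : Set Om) : star (op G s) = op (-G) {F | F + -G ∈ s} := by
  rw [op, star_wop _ _ _ (fun i => by rw [RCLike.norm_conj]; exact ind_norm _ _)]
  ext z F
  rw [wop_apply, op_apply]
  have : (Equiv.addRight G).symm F = F + -G := rfl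
  rw [this]
  by_cases h : F + -G ∈ s <;> simp [h]

theorem op_univ : op 0 Set.univ = 1 := by
  ext z F
  rw [op_apply]; simp

theorem op_empty (G : Om) : op G ∅ = 0 := by
  ext z F
  rw [op_apply]; simp

theorem op_norm_le (G : Om) (s : Set Om) : ‖op G s‖ ≤ 1 :=
  ContinuousLinearMap.opNorm_le_bound _ zero_le_one fun z => by
    rw [one_mul]; exact norm_wop_le _ _ _ z

theorem op_sum {Γ : Type} [Fintype Γ] (G : Om) (t : Set Om) (s : Γ → Set Om)
    (h1 : ∀ F ∈ t, ∃! γ, F ∈ s γ) (h2 : ∀ γ, s γ ⊆ t) : ∑ γ, op G (s γ) = op G t := by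
  ext z F
  rw [sum_apply, lp.coeFn_sum, Finset.sum_apply]
  simp only [op_apply]
  rw [← Finset.sum_mul]
  congr 1
  by_cases hF : F ∈ t
  · obtain ⟨γ, hγ, hu⟩ := h1 F hF
    rw [Finset.sum_eq_single γ, Set.indicator_of_mem hγ, Set.indicator_of_mem hF]
    · intro b _ hb
      exact Set.indicator_of_notMem (fun h => hb (hu b h)) _
    · intro h; exact absurd (Finset.mem_univ _) h
  · rw [Set.indicator_of_notMem hF]
    exact Finset.sum_eq_zero fun γ _ => Set.indicator_of_notMem (fun h => hF (h2 γ h)) _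

theorem op_split (G : Om) (t s : Set Om) : op G (t ∩ s) + op G (t ∩ sᶜ) = op G t := by
  ext z F
  rw [add_apply, lp.coeFn_add, Pi.add_apply, op_apply, op_apply, op_apply]
  by_cases h : F ∈ t <;> by_cases h' : F ∈ s <;> simp [h, h']

open Classical in
/-- basis vectors -/
noncomputable def dl (F : Om) : L2 Om := lp.single 2 F (1 : ℂ)

theorem dl_norm (F : Om) : ‖dl F‖ = 1 := by
  classical
  rw [dl, lp.norm_single (by norm_num), norm_one]

theorem inner_dl (F : Om) (z : L2 Om) : ⟪dl F, z⟫_ℂ = z F := by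
  classical
  rw [dl, lp.inner_single_left]; simp

/-- diagonal coefficients -/
noncomputable def dg (F : Om) : Op (L2 Om) →ₗ[ℂ] ℂ where
  toFun T := ⟪dl F, T (dl F)⟫_ℂ
  map_add' a b := by rw [add_apply, inner_add_right]
  map_smul' c a := by rw [smul_apply, inner_smul_right]; rfl

open Classical in
theorem dg_op (F G : Om) (s : Set Om) : dg F (op G s) = if G = 0 ∧ F ∈ s then 1 else 0 := by
  show ⟪dl F, op G s (dl F)⟫_ℂ = _
  rw [inner_dl, op_apply, dl, lp.single_apply, Pi.single_apply]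
  by_cases h : F ∈ s <;> by_cases h' : G = 0 <;> simp [h, h']

theorem dg_star_mul (F : Om) (T : Op (L2 Om)) :
    dg F (star T * T) = ((‖T (dl F)‖ ^ 2 : ℝ) : ℂ) := by
  show ⟪dl F, (star T * T) (dl F)⟫_ℂ = _
  rw [inner_star_mul, inner_self_eq_norm_sq_to_K]
  push_cast; rfl

theorem dg_norm_le (F : Om) (T : Op (L2 Om)) : ‖dg F T‖ ≤ ‖T‖ := by
  show ‖⟪dl F, T (dl F)⟫_ℂ‖ ≤ _
  refine (norm_inner_le_norm _ _).trans ?_
  have := T.le_opNorm (dl F)
  rw [dl_norm] at this ⊢
  linarith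

theorem dg_one (F : Om) : dg F 1 = 1 := by
  rw [← op_univ, dg_op]; simp

theorem eq_zero_of_dl {T : Op (L2 Om)} (h : ∀ F, T (dl F) = 0) : T = 0 := by
  classical
  ext1 z
  have h1 := (lp.hasSum_single (p := 2) (by norm_num) z).mapL T
  have h2 : (fun F : Om => T (lp.single 2 F (z F))) = fun _ => 0 := by
    funext F
    have : (lp.single 2 F (z F) : L2 Om) = z F • dl F := by
      rw [dl, ← lp.single_smul, smul_eq_mul, mul_one]
    rw [this, map_smul, h, smul_zero]
  rw [h2] at h1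
  exact h1.unique hasSum_zero

/-! ### levels -/

variable {X : Type} (xs : ℕ → X)

open Classical in
noncomputable def yy (k : ℕ) (F : Om) : X :=
  if h : ∃ j, k ≤ j ∧ F j = 1 then xs (Nat.find h) else xs 0

theorem yy_eq {k j : ℕ} {F : Om} (hkj : k ≤ j) (hj : F j = 1)
    (h : ∀ i, k ≤ i → i < j → F i ≠ 1) : yy xs k F = xs j := by
  classical
  have hex : ∃ j, k ≤ j ∧ F j = 1 := ⟨j, hkj, hj⟩
  rw [yy, dif_pos hex]
  congr 1
  rw [Nat.find_eq_iff]
  exact ⟨⟨hkj, hj⟩, fun i hi hi' => h i hi'.1 hi hi'.2⟩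

theorem yy_congr {k : ℕ} {F F' : Om} (h : ∀ j, k ≤ j → F j = F' j) : yy xs k F = yy xs k F' := by
  classical
  by_cases hex : ∃ j, k ≤ j ∧ F j = 1
  · have h1 := Nat.find_spec hex
    rw [yy, dif_pos hex]
    refine (yy_eq xs h1.1 (by rw [← h _ h1.1]; exact h1.2) fun i hi hi' h2 => ?_).symm
    exact Nat.find_min hex hi' ⟨hi, by rw [h i hi]; exact h2⟩
  · have hex' : ¬ ∃ j, k ≤ j ∧ F' j = 1 := fun ⟨j, h1, h2⟩ => hex ⟨j, h1, by rw [h j h1, h2]⟩
    rw [yy, yy, dif_neg hex, dif_neg hex']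

theorem yy_one {k : ℕ} {F : Om} (h : F k = 1) : yy xs k F = xs k :=
  yy_eq xs le_rfl h fun i h1 h2 => absurd h1 (not_le.2 h2)

theorem yy_ne {k : ℕ} {F : Om} (h : F k ≠ 1) : yy xs k F = yy xs (k + 1) F := by
  classical
  by_cases hex : ∃ j, k + 1 ≤ j ∧ F j = 1
  · have h1 := Nat.find_spec hex
    rw [yy.eq_1 xs (k + 1), dif_pos hex]
    refine yy_eq xs (by omega) h1.2 fun i hi hi' h2 => ?_
    rcases hi.eq_or_lt with rfl | hi
    · exact h h2
    · exact Nat.find_min hex hi' ⟨hi, h2⟩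
  · have hex' : ¬ ∃ j, k ≤ j ∧ F j = 1 := by
      rintro ⟨j, h1, h2⟩
      rcases h1.eq_or_lt with rfl | h1
      · exact h h2
      · exact hex ⟨j, h1, h2⟩
    rw [yy, yy, dif_neg hex, dif_neg hex']

theorem yy_shift {k : ℕ} {G : Om} (hG : Supp k G) (F : Om) : yy xs k (F + G) = yy xs k F :=
  yy_congr xs fun j hj => by rw [Pi.add_apply, hG j hj, add_zero]

/-- sets of level `k` -/
def Lev (k : ℕ) (s : Set Om) : Prop :=
  ∀ F F', (∀ j < k, F j = F' j) → yy xs k F = yy xs k F' → F ∈ s → F' ∈ s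

variable {xs}

theorem Lev.succ {k : ℕ} {s : Set Om} (h : Lev xs k s) : Lev xs (k + 1) s := by
  intro F F' h1 h2
  refine h F F' (fun j hj => h1 j (by omega)) ?_
  have h3 := h1 k (by omega)
  by_cases h4 : F k = 1
  · rw [yy_one xs h4, yy_one xs (h3 ▸ h4)]
  · have h5 : F' k ≠ 1 := h3 ▸ h4
    rw [yy_ne xs h4, yy_ne xs h5, h2]

theorem Lev.mono {k n : ℕ} {s : Set Om} (h : Lev xs k s) (hkn : k ≤ n) : Lev xs n s := by
  induction hkn with
  | refl => exact h
  | step _ ih => exact ih.succ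

theorem Lev.inter {k : ℕ} {s t : Set Om} (h : Lev xs k s) (h' : Lev xs k t) : Lev xs k (s ∩ t) :=
  fun F F' h1 h2 h3 => ⟨h F F' h1 h2 h3.1, h' F F' h1 h2 h3.2⟩

theorem Lev.compl {k : ℕ} {s : Set Om} (h : Lev xs k s) : Lev xs k sᶜ :=
  fun F F' h1 h2 h3 h4 => h3 (h F' F (fun j hj => (h1 j hj).symm) h2.symm h4)

theorem Lev.shift {k : ℕ} {s : Set Om} (h : Lev xs k s) {G : Om} (hG : Supp k G) :
    Lev xs k {F | F + G ∈ s} := by
  intro F F' h1 h2 h3
  refine h (F + G) (F' + G) (fun j hj => by rw [Pi.add_apply, Pi.add_apply, h1 j hj]) ?_ h3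
  rw [yy_shift xs hG, yy_shift xs hG, h2]

theorem lev_univ (k : ℕ) : Lev xs k Set.univ := fun _ _ _ _ _ => trivial
theorem lev_empty (k : ℕ) : Lev xs k ∅ := fun _ _ _ _ h => h
theorem lev_yy (k : ℕ) (y : X) : Lev xs k {F | yy xs k F = y} :=
  fun _ _ _ h2 h3 => h2.symm.trans h3
theorem lev_coord (k : ℕ) (c : ZMod (m k)) : Lev xs (k + 1) {F | F k = c} :=
  fun _ _ h1 _ h3 => (h1 k (by omega)).symm.trans h3
theorem lev_res (k : ℕ) (a : Hd k) : Lev xs k {F | res k F = a} :=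
  fun _ _ h1 _ h3 => (res_eq_iff.2 h1).symm.trans h3

variable (xs)

/-- the generating monoid -/
def W : Set (Op (L2 Om)) := {T | ∃ k G s, Supp k G ∧ Lev xs k s ∧ T = op G s}

/-- the algebra -/
noncomputable def DD : StarSubalgebra ℂ (Op (L2 Om)) :=
  (StarAlgebra.adjoin ℂ (W xs)).topologicalClosure

instance isClosed_DD : IsClosed (DD xs : Set (Op (L2 Om))) :=
  StarSubalgebra.isClosed_topologicalClosure _

variable {xs}

theorem W_mem {T : Op (L2 Om)} (h : T ∈ W xs) : T ∈ DD xs :=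
  StarSubalgebra.le_topologicalClosure _ (StarAlgebra.subset_adjoin ℂ _ h)

theorem mem_span {T : Op (L2 Om)} (h : T ∈ StarAlgebra.adjoin ℂ (W xs)) :
    T ∈ Submodule.span ℂ (W xs) := by
  have h1 : T ∈ Subalgebra.toSubmodule (StarAlgebra.adjoin ℂ (W xs)).toSubalgebra := h
  rw [StarAlgebra.adjoin_eq_span] at h1
  refine Submodule.span_mono ?_ h1
  intro w hw
  induction hw using Submonoid.closure_induction with
  | mem x hx =>
    rcases hx with hx | hx
    · exact hx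
    · obtain ⟨k, G, s, hG, hs, h2⟩ := hx
      refine ⟨k, -G, _, hG.neg, hs.shift hG.neg, ?_⟩
      rw [← op_star, ← h2, star_star]
  | one => exact ⟨0, 0, Set.univ, supp_zero 0, lev_univ 0, op_univ.symm⟩
  | mul x y _ _ hx hy =>
    obtain ⟨k, G, s, hG, hs, rfl⟩ := hx
    obtain ⟨k', G', s', hG', hs', rfl⟩ := hy
    have h1 := le_max_left k k'
    have h2 := le_max_right k k'
    exact ⟨max k k', G + G', _, (hG.mono h1).add (hG'.mono h2),
      (hs.mono h1).inter ((hs'.mono h2).shift (hG.mono h1)), op_mul _ _ _ _⟩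

theorem DD_closure {T : Op (L2 Om)} (h : T ∈ DD xs) :
    T ∈ closure (Submodule.span ℂ (W xs) : Set (Op (L2 Om))) :=
  closure_mono (fun _ hx => mem_span hx) h

open Classical in
/-- generators as elements of the algebra -/
noncomputable def E (xs : ℕ → X) (G : Om) (s : Set Om) : DD xs :=
  if h : op G s ∈ DD xs then ⟨op G s, h⟩ else 0

theorem E_val {k : ℕ} {G : Om} {s : Set Om} (hG : Supp k G) (hs : Lev xs k s) :
    (E xs G s : Op (L2 Om)) = op G s := by
  rw [E, dif_pos (W_mem ⟨k, G, s, hG, hs, rfl⟩)]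

theorem E_mul {k : ℕ} {G G' : Om} {s s' : Set Om} (hG : Supp k G) (hs : Lev xs k s)
    (hG' : Supp k G') (hs' : Lev xs k s') :
    E xs G s * E xs G' s' = E xs (G + G') (s ∩ {F | F + G ∈ s'}) := by
  apply Subtype.ext
  rw [E_val (hG.add hG') (hs.inter (hs'.shift hG)), ← op_mul, ← E_val hG hs, ← E_val hG' hs']
  rfl

theorem E_univ : E xs 0 Set.univ = 1 :=
  Subtype.ext (by rw [E_val (supp_zero 0) (lev_univ 0), op_univ]; rfl)

theorem E_empty (G : Om) : E xs G ∅ = 0 := by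
  apply Subtype.ext
  rw [E]
  split_ifs with h
  · exact op_empty G
  · rfl

theorem E_norm_le (G : Om) (s : Set Om) : ‖E xs G s‖ ≤ 1 := by
  rw [E]
  split_ifs with h
  · exact op_norm_le G s
  · simp

theorem E_sum {Γ : Type} [Fintype Γ] {k : ℕ} {G : Om} (hG : Supp k G) {t : Set Om}
    (ht : Lev xs k t) {s : Γ → Set Om} (hs : ∀ γ, Lev xs k (s γ))
    (h1 : ∀ F ∈ t, ∃! γ, F ∈ s γ) (h2 : ∀ γ, s γ ⊆ t) : ∑ γ, E xs G (s γ) = E xs G t := by
  apply Subtype.ext
  rw [E_val hG ht, ← op_sum G t s h1 h2, AddSubmonoidClass.coe_finsetSum]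
  exact Finset.sum_congr rfl fun γ _ => E_val hG (hs γ)

theorem E_split {k : ℕ} {t s : Set Om} (ht : Lev xs k t) (hs : Lev xs k s) :
    E xs 0 (t ∩ s) + E xs 0 (t ∩ sᶜ) = E xs 0 t := by
  apply Subtype.ext
  rw [E_val (supp_zero k) ht, ← op_split 0 t s, ← E_val (supp_zero k) (ht.inter hs),
    ← E_val (supp_zero k) (ht.inter hs.compl)]
  rfl

theorem E_proj {k : ℕ} {s : Set Om} (hs : Lev xs k s) :
    star (E xs 0 s) * E xs 0 s = E xs 0 s := by
  apply Subtype.ext
  show star (E xs 0 s : Op (L2 Om)) * (E xs 0 s : Op (L2 Om)) = _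
  rw [E_val (supp_zero k) hs, op_star, op_mul]
  simp

theorem ext_W {ν : DD xs →ₗ[ℂ] ℂ} (hc : Continuous ν)
    (h : ∀ k G s, Supp k G → Lev xs k s → ν (E xs G s) = 0) : ν = 0 := by
  let S : Submodule ℂ (Op (L2 Om)) :=
    (LinearMap.ker ν).map (DD xs).toSubalgebra.toSubmodule.subtype
  have hS : IsClosed (S : Set (Op (L2 Om))) :=
    (isClosed_DD xs).isClosedEmbedding_subtypeVal.isClosedMap _ (isClosed_eq hc continuous_const)
  have hW : Submodule.span ℂ (W xs) ≤ S := by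
    rw [Submodule.span_le]
    rintro _ ⟨k, G, s, hG, hs, rfl⟩
    exact ⟨E xs G s, h k G s hG hs, E_val hG hs⟩
  ext a
  obtain ⟨b, hb, hba⟩ := closure_minimal hW hS (DD_closure a.2)
  have : b = a := Subtype.ext hba
  rw [← this]
  exact hb

end Vale.Agent.N070.Model
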