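import Vale.Agent.N070.Model

/-! Simplicity and traces of the model algebra. -/

set_option linter.all false

namespace Vale.Agent.N070.Model

open scoped InnerProductSpace ComplexOrder
open Filter Topology Vale.Agent.P070 Vale.Agent.N070

variable {X : Type} {xs : ℕ → X}

/-- tracial on the generators of level `n` -/
def TrL (n : ℕ) (ν : DD xs →ₗ[ℂ] ℂ) : Prop :=
  ∀ G s G' s', Supp n G → Lev xs n s → Supp n G' → Lev xs n s' →
    ν (E xs G s * E xs G' s') = ν (E xs G' s' * E xs G s)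

variable {n : ℕ} {ν : DD xs →ₗ[ℂ] ℂ}

theorem conj_eq {G : Om} {s : Set Om} (hG : Supp n G) (hs : Lev xs n s) :
    E xs G Set.univ * E xs (-G) s = E xs 0 {F | F + G ∈ s} ∧
    E xs (-G) s * E xs G Set.univ = E xs 0 s := by
  rw [E_mul hG (lev_univ n) hG.neg hs, E_mul hG.neg hs hG (lev_univ n)]
  simp

theorem TrL.shift (h : TrL n ν) {G : Om} {s : Set Om} (hG : Supp n G) (hs : Lev xs n s) :
    ν (E xs 0 {F | F + G ∈ s}) = ν (E xs 0 s) := by
  rw [← (conj_eq hG hs).1, h _ _ _ _ hG (lev_univ n) hG.neg hs, (conj_eq hG hs).2]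

theorem TrL.avg (h : TrL n ν) {Γ : Type} [Fintype Γ] {g : Γ → Om} (hg : ∀ γ, Supp n (g γ))
    {s t : Set Om} (hs : Lev xs n s) (ht : Lev xs n t)
    (h1 : ∀ F ∈ t, ∃! γ, F + g γ ∈ s) (h2 : ∀ γ F, F + g γ ∈ s → F ∈ t) :
    (Fintype.card Γ : ℂ) * ν (E xs 0 s) = ν (E xs 0 t) := by
  rw [← E_sum (supp_zero n) ht (s := fun γ => {F | F + g γ ∈ s}) (fun γ => hs.shift (hg γ)) h1 h2,
    map_sum]
  simp only [h.shift (hg _) hs]
  rw [Finset.sum_const, Finset.card_univ, nsmul_eq_mul]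

theorem TrL.off (h : TrL n ν) {G : Om} {s : Set Om} (hG : Supp n G) (hs : Lev xs n s)
    (hG0 : G ≠ 0) : ν (E xs G s) = 0 := by
  obtain ⟨i, hi⟩ : ∃ i, G i ≠ 0 := Function.ne_iff.1 hG0
  have hin : i + 1 ≤ n := by
    by_contra hc
    exact hi (hG i (by omega))
  have hc : ∀ c, Lev xs n {F : Om | F i = c} := fun c => (lev_coord i c).mono hin
  rw [← E_sum hG hs (s := fun c => s ∩ {F | F i = c}) (fun c => hs.inter (hc c))
    (fun F hF => ⟨F i, ⟨hF, rfl⟩, fun c hc => hc.2.symm⟩) (fun c => Set.inter_subset_left),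
    map_sum]
  refine Finset.sum_eq_zero fun c _ => ?_
  have h1 := h _ _ _ _ (supp_zero n) (hc c) hG (hs.inter (hc c))
  rw [E_mul (supp_zero n) (hc c) hG (hs.inter (hc c)),
    E_mul hG (hs.inter (hc c)) (supp_zero n) (hc c)] at h1
  have e1 : ({F : Om | F i = c} ∩ {F | F + 0 ∈ s ∩ {F | F i = c}}) = s ∩ {F | F i = c} := by
    ext F; simp only [add_zero, Set.mem_inter_iff, Set.mem_setOf_eq]; tauto
  have e2 : (s ∩ {F : Om | F i = c} ∩ {F | F + G ∈ {F : Om | F i = c}}) = ∅ := by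
    ext F
    simp only [Set.mem_inter_iff, Set.mem_setOf_eq, Pi.add_apply, Set.mem_empty_iff_false,
      iff_false, not_and]
    rintro ⟨-, h2⟩ h3
    rw [h2] at h3
    exact hi (by simpa using h3)
  rw [e1, e2, zero_add, E_empty, map_zero] at h1
  exact h1

/-- the weights -/
noncomputable def mu (ν : DD xs →ₗ[ℂ] ℂ) (k : ℕ) (y : X) : ℂ := ν (E xs 0 {F | yy xs k F = y})

theorem m_ne (k : ℕ) : (m k : ℂ) ≠ 0 := by exact_mod_cast NeZero.ne (m k)

theorem norm_inv_m (k : ℕ) : ‖(m k : ℂ)⁻¹‖ = (1 / 2) ^ (k + 1) := by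
  rw [norm_inv, Complex.norm_natCast, m]
  push_cast
  rw [one_div, inv_pow]

theorem norm_one_sub_inv_m (k : ℕ) : ‖1 - (m k : ℂ)⁻¹‖ ≤ 1 := by
  have h1 : (1 : ℂ) - (m k : ℂ)⁻¹ = ((1 - (m k : ℝ)⁻¹ : ℝ) : ℂ) := by push_cast; rfl
  have h2 : (1 : ℝ) ≤ m k := by exact_mod_cast (one_lt_m k).le
  have h3 : (m k : ℝ)⁻¹ ≤ 1 := inv_le_one_of_one_le₀ h2
  have h4 : 0 ≤ (m k : ℝ)⁻¹ := by positivity
  rw [h1, Complex.norm_real, Real.norm_of_nonneg (by linarith)]
  linarith

theorem TrL.coord (h : TrL n ν) {k : ℕ} (hk : k + 1 ≤ n) {t : Set Om} (ht : Lev xs n t)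
    (hinv : ∀ (c : ZMod (m k)) F, F + Pi.single k c ∈ t ↔ F ∈ t) :
    ν (E xs 0 (t ∩ {F | F k = 1})) = (m k : ℂ)⁻¹ * ν (E xs 0 t) := by
  have h1 := h.avg (Γ := ZMod (m k)) (g := fun c => Pi.single k c)
    (fun c => (supp_single k c).mono hk) (ht.inter ((lev_coord k 1).mono hk)) ht ?_ ?_
  · rw [ZMod.card] at h1
    rw [← h1, ← mul_assoc, inv_mul_cancel₀ (m_ne k), one_mul]
  · intro F hF
    refine ⟨1 - F k, ⟨(hinv _ _).2 hF, ?_⟩, fun c hc => ?_⟩
    · simp
    · have h2 : F k + c = 1 := by simpa using hc.2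
      rw [← h2]; ring
  · intro c F hF
    exact (hinv c F).1 hF.1

open Classical in
theorem TrL.rec' (h : TrL n ν) {k : ℕ} (hk : k + 1 ≤ n) (y : X) :
    mu ν k y = (m k : ℂ)⁻¹ * (if xs k = y then ν 1 else 0) + (1 - (m k : ℂ)⁻¹) * mu ν (k + 1) y := by
  have hc : Lev xs n {F : Om | F k = 1} := (lev_coord k 1).mono hk
  have h1 := E_split ((lev_yy k y).mono (Nat.le_of_succ_le hk)) hc
  have h2 := E_split ((lev_yy (k + 1) y).mono hk) hc
  have e1 : {F : Om | yy xs k F = y} ∩ {F : Om | F k = 1}ᶜ =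
      {F : Om | yy xs (k + 1) F = y} ∩ {F : Om | F k = 1}ᶜ := by
    ext F
    simp only [Set.mem_inter_iff, Set.mem_setOf_eq, Set.mem_compl_iff]
    constructor
    · rintro ⟨a, b⟩; exact ⟨by rw [← yy_ne xs b, a], b⟩
    · rintro ⟨a, b⟩; exact ⟨by rw [yy_ne xs b, a], b⟩
  have h3 := h.coord hk ((lev_yy (k + 1) y).mono hk) fun c F => by
    simp only [Set.mem_setOf_eq]
    rw [yy_shift xs (supp_single k c)]
  have h4 := h.coord hk (lev_univ n) fun c F => Iff.rfl
  rw [E_univ] at h4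
  have h5 : ν (E xs 0 ({F : Om | yy xs k F = y} ∩ {F : Om | F k = 1})) =
      (m k : ℂ)⁻¹ * (if xs k = y then ν 1 else 0) := by
    by_cases hy : xs k = y
    · rw [if_pos hy, ← h4]
      congr 2
      ext F
      simp only [Set.mem_inter_iff, Set.mem_setOf_eq, Set.mem_univ, true_and]
      exact ⟨fun a => a.2, fun a => ⟨by rw [yy_one xs a, hy], a⟩⟩
    · have : {F : Om | yy xs k F = y} ∩ {F : Om | F k = 1} = ∅ := by
        ext F
        simp only [Set.mem_inter_iff, Set.mem_setOf_eq, Set.mem_empty_iff_false, iff_false]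
        rintro ⟨a, b⟩
        exact hy (by rw [← yy_one xs b, a])
      rw [this, E_empty, map_zero, if_neg hy, mul_zero]
  have h6 := congrArg ν h1
  have h7 := congrArg ν h2
  rw [map_add] at h6 h7
  rw [mu, mu, ← h6, h5, e1, ← h7, h3]
  rw [h3] at h7
  linear_combination ((m k : ℂ)⁻¹) * h7

theorem TrL.zero [Fintype X] (h : TrL n ν) (h0 : ∀ y, mu ν n y = 0) {G : Om} {s : Set Om}
    (hG : Supp n G) (hs : Lev xs n s) : ν (E xs G s) = 0 := by
  by_cases hG0 : G = 0
  swap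
  · exact h.off hG hs hG0
  subst hG0
  have hA : ∀ p : Hd n × X, Lev xs n ({F | res n F = p.1} ∩ {F | yy xs n F = p.2}) :=
    fun p => (lev_res n p.1).inter (lev_yy n p.2)
  have hA0 : ∀ p : Hd n × X, ν (E xs 0 ({F | res n F = p.1} ∩ {F | yy xs n F = p.2})) = 0 := by
    intro p
    have h1 := h.avg (Γ := Hd n) (g := ext n) (supp_ext n) (hA p) (lev_yy n p.2) ?_ ?_
    · have h2 := h0 p.2
      rw [mu] at h2
      rw [h2] at h1
      exact (mul_eq_zero.1 h1).resolve_left (by exact_mod_cast Fintype.card_ne_zero)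
    · intro F hF
      refine ⟨p.1 - res n F, ⟨?_, ?_⟩, fun b hb => ?_⟩
      · show res n (F + ext n (p.1 - res n F)) = p.1
        rw [res_add, res_ext]; abel
      · show yy xs n (F + ext n (p.1 - res n F)) = p.2
        rw [yy_shift xs (supp_ext n _)]; exact hF
      · have h2 : res n (F + ext n b) = p.1 := hb.1
        rw [res_add, res_ext] at h2
        rw [← h2]; abel
    · intro b F hF
      have h2 : yy xs n (F + ext n b) = p.2 := hF.2
      rwa [yy_shift xs (supp_ext n _)] at h2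
  rw [← E_sum (supp_zero n) hs (s := fun p : Hd n × X =>
      s ∩ ({F | res n F = p.1} ∩ {F | yy xs n F = p.2})) (fun p => hs.inter (hA p))
    (fun F hF => ⟨(res n F, yy xs n F), ⟨hF, rfl, rfl⟩, fun p hp =>
      Prod.ext hp.2.1.symm hp.2.2.symm⟩) (fun c => Set.inter_subset_left), map_sum]
  refine Finset.sum_eq_zero fun p _ => ?_
  by_cases hne : (s ∩ ({F | res n F = p.1} ∩ {F | yy xs n F = p.2})).Nonempty
  · obtain ⟨F0, hF0, a1, a2⟩ := hne
    have : s ∩ ({F | res n F = p.1} ∩ {F | yy xs n F = p.2}) =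
        {F | res n F = p.1} ∩ {F | yy xs n F = p.2} := by
      refine Set.inter_eq_self_of_subset_right fun F hF => ?_
      exact hs F0 F (res_eq_iff.1 (a1.trans hF.1.symm)) (a2.trans hF.2.symm) hF0
    rw [this, hA0]
  · rw [Set.not_nonempty_iff_eq_empty.1 hne, E_empty, map_zero]

theorem mu_sum [Fintype X] (ν : DD xs →ₗ[ℂ] ℂ) (k : ℕ) : ∑ y, mu ν k y = ν 1 := by
  rw [← E_univ, ← E_sum (supp_zero k) (lev_univ k) (s := fun y => {F | yy xs k F = y})
    (fun y => lev_yy k y) (fun F _ => ⟨yy xs k F, rfl, fun y hy => hy.symm⟩)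
    (fun _ => Set.subset_univ _), map_sum]
  rfl

/-- a continuous tracial functional is determined by the limits of its weights -/
theorem eq_zero_of_mu [Fintype X] (hc : Continuous ν) (h : ∀ n, TrL n ν)
    (hlim : ∀ y, Tendsto (fun k => mu ν k y) atTop (𝓝 0)) : ν = 0 := by
  classical
  have h1 : ν 1 = 0 := by
    have h2 : Tendsto (fun k => ∑ y, mu ν k y) atTop (𝓝 (∑ y : X, (0 : ℂ))) :=
      tendsto_finsetSum _ fun y _ => hlim y
    simp only [mu_sum, Finset.sum_const_zero] at h2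
    exact tendsto_nhds_unique tendsto_const_nhds h2
  have hmono : ∀ y, Monotone fun k => ‖mu ν k y‖ := by
    intro y
    refine monotone_nat_of_le_succ fun k => ?_
    rw [(h (k + 1)).rec' le_rfl y, h1, ite_self, mul_zero, zero_add, norm_mul]
    exact mul_le_of_le_one_left (norm_nonneg _) (norm_one_sub_inv_m k)
  have h0 : ∀ k y, mu ν k y = 0 := by
    intro k y
    have h3 := (hmono y).ge_of_tendsto (hlim y).norm k
    rw [norm_zero] at h3
    exact norm_le_zero_iff.1 h3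
  exact ext_W hc fun k G s hG hs => (h k).zero (h0 k) hG hs

/-! ### the extreme traces -/

noncomputable def phi (xs : ℕ → X) (n j : ℕ) : DD xs →ₗ[ℂ] ℂ :=
  (Fintype.card (Hd n) : ℂ)⁻¹ • ∑ a : Hd n,
    (dg (ext n a + Pi.single j 1)).comp (DD xs).toSubalgebra.toSubmodule.subtype

theorem phi_apply (n j : ℕ) (T : DD xs) : phi xs n j T =
    (Fintype.card (Hd n) : ℂ)⁻¹ * ∑ a : Hd n, dg (ext n a + Pi.single j 1) (T : Op (L2 Om)) := by
  rw [phi, LinearMap.smul_apply, LinearMap.sum_apply]; rfl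

theorem card_ne (n : ℕ) : (Fintype.card (Hd n) : ℂ) ≠ 0 := by exact_mod_cast Fintype.card_ne_zero

theorem phi_const {n j : ℕ} {T : DD xs} {c : ℂ}
    (h : ∀ a : Hd n, dg (ext n a + Pi.single j 1) (T : Op (L2 Om)) = c) : phi xs n j T = c := by
  rw [phi_apply]
  simp only [h]
  rw [Finset.sum_const, Finset.card_univ, nsmul_eq_mul, ← mul_assoc, inv_mul_cancel₀ (card_ne n),
    one_mul]

theorem phi_state (n j : ℕ) : IsState (phi xs n j) := by
  refine ⟨phi_const fun a => dg_one _, fun T => ?_⟩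
  rw [phi_apply]
  refine mul_nonneg ?_ (Finset.sum_nonneg fun a _ => ?_)
  · have : (Fintype.card (Hd n) : ℂ)⁻¹ = (((Fintype.card (Hd n) : ℝ)⁻¹ : ℝ) : ℂ) := by
      push_cast; rfl
    rw [this]
    exact Complex.zero_le_real.2 (by positivity)
  · have : ((star T * T : DD xs) : Op (L2 Om)) = star (T : Op (L2 Om)) * T := rfl
    rw [this, dg_star_mul]
    exact Complex.zero_le_real.2 (by positivity)

theorem phi_trL (n j : ℕ) : TrL n (phi xs n j) := by
  intro G s G' s' hG hs hG' hs'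
  rw [E_mul hG hs hG' hs', E_mul hG' hs' hG hs, phi_apply, phi_apply,
    E_val (hG.add hG') (hs.inter (hs'.shift hG)), E_val (hG'.add hG) (hs'.inter (hs.shift hG'))]
  congr 1
  refine Fintype.sum_equiv (Equiv.addRight (res n G)) _ _ fun a => ?_
  rw [dg_op, dg_op]
  have e : ext n ((Equiv.addRight (res n G)) a) + Pi.single j 1 =
      ext n a + Pi.single j 1 + G := by
    rw [Equiv.coe_addRight, ext_add, ext_res hG]; abel
  rw [e]
  have hiff : (G + G' = 0 ∧ ext n a + Pi.single j 1 ∈ s ∩ {F | F + G ∈ s'}) ↔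
      (G' + G = 0 ∧ ext n a + Pi.single j 1 + G ∈ s' ∩ {F | F + G' ∈ s}) := by
    simp only [Set.mem_inter_iff, Set.mem_setOf_eq]
    constructor
    · rintro ⟨a1, a2, a3⟩
      refine ⟨by rw [add_comm, a1], a3, ?_⟩
      rwa [add_assoc _ G G', a1, add_zero]
    · rintro ⟨a1, a2, a3⟩
      rw [add_comm] at a1
      refine ⟨a1, ?_, a2⟩
      rwa [add_assoc _ G G', a1, add_zero] at a3
  by_cases hc : G + G' = 0 ∧ ext n a + Pi.single j 1 ∈ s ∩ {F | F + G ∈ s'}
  · rw [if_pos hc, if_pos (hiff.1 hc)]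
  · rw [if_neg hc, if_neg (fun h => hc (hiff.2 h))]

open Classical in
theorem phi_mu {n j : ℕ} (hj : n ≤ j) (y : X) {k : ℕ} (hk : k ≤ n) :
    ‖mu (phi xs n j) k y - (if xs j = y then 1 else 0)‖ ≤ (1 / 2) ^ k := by
  induction hk using Nat.decreasingInduction with
  | self =>
    have : mu (phi xs n j) n y = if xs j = y then 1 else 0 := by
      refine phi_const fun a => ?_
      rw [E_val (supp_zero n) (lev_yy n y), dg_op]
      have h1 : yy xs n (ext n a + Pi.single j 1) = xs j := by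
        rw [add_comm, yy_shift xs (supp_ext n a)]
        refine yy_eq xs hj (Pi.single_eq_same _ _) fun i _ hi => ?_
        rw [Pi.single_eq_of_ne hi.ne]
        exact zero_ne_one
      simp [h1]
    rw [this, sub_self, norm_zero]; positivity
  | of_succ k hk ih =>
    rw [(phi_trL n j).rec' hk y, (phi_state n j).1]
    set α : ℂ := if xs k = y then 1 else 0 with hα
    set δ : ℂ := if xs j = y then 1 else 0 with hδ
    have h1 : (m k : ℂ)⁻¹ * α + (1 - (m k : ℂ)⁻¹) * mu (phi xs n j) (k + 1) y - δ =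
        (m k : ℂ)⁻¹ * (α - δ) + (1 - (m k : ℂ)⁻¹) * (mu (phi xs n j) (k + 1) y - δ) := by ring
    have h2 : ‖α - δ‖ ≤ 1 := by
      rw [hα, hδ]; split_ifs <;> simp
    rw [h1]
    refine (norm_add_le _ _).trans ?_
    rw [norm_mul, norm_mul, norm_inv_m]
    have h3 := norm_one_sub_inv_m k
    have h4 : (1 / 2 : ℝ) ^ (k + 1) * ‖α - δ‖ ≤ (1 / 2) ^ (k + 1) :=
      mul_le_of_le_one_right (by positivity) h2
    have h5 : ‖1 - (m k : ℂ)⁻¹‖ * ‖mu (phi xs n j) (k + 1) y - δ‖ ≤ (1 / 2) ^ (k + 1) :=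
      (mul_le_of_le_one_left (norm_nonneg _) h3).trans ih
    have h6 : (1 / 2 : ℝ) ^ k = (1 / 2) ^ (k + 1) + (1 / 2) ^ (k + 1) := by ring
    linarith

theorem tracial_of_trL (hc : Continuous ν) (h : ∀ n, TrL n ν) (a b : DD xs) :
    ν (a * b) = ν (b * a) := by
  have key : ∀ a : DD xs, (∀ k G s, Supp k G → Lev xs k s →
      ν (a * E xs G s) = ν (E xs G s * a)) → ∀ b, ν (a * b) = ν (b * a) := by
    intro a ha b
    have h1 : ν.comp (LinearMap.mulLeft ℂ a) - ν.comp (LinearMap.mulRight ℂ a) = 0 := by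
      refine ext_W ?_ fun k G s hG hs => sub_eq_zero.2 (ha k G s hG hs)
      exact (hc.comp (continuous_const.mul continuous_id)).sub
        (hc.comp (continuous_id.mul continuous_const))
    exact sub_eq_zero.1 (LinearMap.congr_fun h1 b)
  refine key a (fun k G s hG hs => (key (E xs G s) (fun k' G' s' hG' hs' => ?_) a).symm) b
  exact h (max k k') _ _ _ _ (hG.mono (le_max_left _ _)) (hs.mono (le_max_left _ _))
    (hG'.mono (le_max_right _ _)) (hs'.mono (le_max_right _ _))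

open Classical in
theorem exists_tau (hxs : ∀ k y, ∃ j, k ≤ j ∧ xs j = y) (y0 : X) :
    ∃ τ : DD xs →ₗ[ℂ] ℂ, IsTrace τ ∧
      ∀ y, Tendsto (fun k => mu τ k y) atTop (𝓝 (if y0 = y then 1 else 0)) := by
  choose J hJ1 hJ2 using fun k => hxs k y0
  have hb : ∀ T : DD xs, Tendsto (fun n => phi xs n (J n) T) (hyperfilter ℕ : Filter ℕ)
      (𝓝 (ulim fun n => phi xs n (J n) T)) :=
    fun T => tendsto_ulim ⟨‖T‖, fun n => ((phi_state n (J n)).sq_le T).2⟩
  let τ : DD xs →ₗ[ℂ] ℂ :=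
    { toFun := fun T => ulim fun n => phi xs n (J n) T
      map_add' := fun a b => by
        apply ulim_eq
        simp only [map_add]
        exact (hb a).add (hb b)
      map_smul' := fun c a => by
        apply ulim_eq
        simp only [map_smul, smul_eq_mul, RingHom.id_apply]
        exact (hb a).const_mul c }
  have hτ : ∀ T, Tendsto (fun n => phi xs n (J n) T) (hyperfilter ℕ : Filter ℕ) (𝓝 (τ T)) := hb
  have hev : ∀ k, ∀ᶠ n in (hyperfilter ℕ : Filter ℕ), k ≤ n := fun k =>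
    (eventually_ge_atTop k).filter_mono Nat.hyperfilter_le_atTop
  have hst : IsState τ := by
    constructor
    · have := hτ 1
      simp only [(phi_state _ _).1] at this
      exact tendsto_nhds_unique this tendsto_const_nhds
    · intro a
      exact ge_of_tendsto' (hτ _) fun n => (phi_state n (J n)).2 a
  refine ⟨τ, ⟨hst, tracial_of_trL hst.continuous fun k G s G' s' hG hs hG' hs' => ?_⟩, fun y => ?_⟩
  · refine tendsto_nhds_unique_of_eventuallyEq (hτ _) (hτ _) ?_
    filter_upwards [hev k] with n hn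
    exact phi_trL n (J n) _ _ _ _ (hG.mono hn) (hs.mono hn) (hG'.mono hn) (hs'.mono hn)
  · rw [tendsto_iff_norm_sub_tendsto_zero]
    refine squeeze_zero (fun _ => norm_nonneg _) (fun k => ?_)
      (tendsto_pow_atTop_nhds_zero_of_lt_one (r := (1 / 2 : ℝ)) (by norm_num) (by norm_num))
    refine le_of_tendsto (((hτ _).sub_const _).norm) ?_
    filter_upwards [hev k] with n hn
    have := phi_mu (xs := xs) (hJ1 n) y hn
    rwa [hJ2 n] at this

theorem trL_of_trace {σ : DD xs →ₗ[ℂ] ℂ} (hσ : IsTrace σ) (n : ℕ) : TrL n σ :=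
  fun _ _ _ _ _ _ _ _ => hσ.2 _ _

theorem exists_lim {σ : DD xs →ₗ[ℂ] ℂ} (hσ : IsTrace σ) (y : X) :
    ∃ c : ℝ, 0 ≤ c ∧ Tendsto (fun k => mu σ k y) atTop (𝓝 (c : ℂ)) := by
  classical
  have hb : ∀ k, ‖mu σ k y‖ ≤ 1 := fun k => (hσ.1.sq_le _).2.trans (E_norm_le _ _)
  have hC : CauchySeq fun k => mu σ k y := by
    refine cauchySeq_of_le_geometric (1 / 2) 1 (by norm_num) fun k => ?_
    rw [dist_eq_norm, (trL_of_trace hσ (k + 1)).rec' le_rfl y, hσ.1.1]
    set α : ℂ := if xs k = y then 1 else 0 with hα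
    have h1 : (m k : ℂ)⁻¹ * α + (1 - (m k : ℂ)⁻¹) * mu σ (k + 1) y - mu σ (k + 1) y =
        (m k : ℂ)⁻¹ * (α - mu σ (k + 1) y) := by ring
    have h2 : ‖α‖ ≤ 1 := by rw [hα]; split_ifs <;> simp
    have h3 : ‖α - mu σ (k + 1) y‖ ≤ 2 := (norm_sub_le _ _).trans (by linarith [hb (k + 1)])
    rw [h1, norm_mul, norm_inv_m]
    calc (1 / 2 : ℝ) ^ (k + 1) * ‖α - mu σ (k + 1) y‖ ≤ (1 / 2) ^ (k + 1) * 2 := by gcongr
      _ = 1 * (1 / 2) ^ k := by ring
  obtain ⟨c, hc⟩ := cauchySeq_tendsto_of_complete hC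
  have h0 : 0 ≤ c := by
    refine ge_of_tendsto' hc fun k => ?_
    have := hσ.1.2 (E xs 0 {F | yy xs k F = y})
    rwa [E_proj (lev_yy k y)] at this
  obtain ⟨h1, h2⟩ := Complex.nonneg_iff.1 h0
  refine ⟨c.re, h1, ?_⟩
  have : (c.re : ℂ) = c := Complex.ext rfl (by simpa using h2)
  rwa [this]

theorem traces [Fintype X] (hxs : ∀ k y, ∃ j, k ≤ j ∧ xs j = y) :
    ∃ τ : X → (DD xs →ₗ[ℂ] ℂ), (∀ y, IsTrace (τ y)) ∧ LinearIndependent ℂ τ ∧
      ∀ σ : DD xs →ₗ[ℂ] ℂ, IsTrace σ → ∃ c : X → ℝ, (∀ y, 0 ≤ c y) ∧ ∑ y, c y = 1 ∧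
        σ = ∑ y, (c y : ℂ) • τ y := by
  classical
  choose τ hτ hlim using exists_tau hxs
  have comb : ∀ (g : X → ℂ) (y : X),
      Tendsto (fun k => mu (∑ y', g y' • τ y') k y) atTop (𝓝 (g y)) := by
    intro g y
    have h1 : Tendsto (fun k => ∑ y', g y' * mu (τ y') k y) atTop
        (𝓝 (∑ y', g y' * (if y' = y then 1 else 0))) :=
      tendsto_finsetSum _ fun y' _ => (hlim y' y).const_mul _
    simp only [mul_ite, mul_one, mul_zero, Finset.sum_ite_eq', Finset.mem_univ, if_true] at h1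
    refine h1.congr fun k => ?_
    simp only [mu, LinearMap.sum_apply, LinearMap.smul_apply, smul_eq_mul]
  refine ⟨τ, hτ, ?_, fun σ hσ => ?_⟩
  · rw [Fintype.linearIndependent_iff]
    intro g hg y
    have h1 := comb g y
    rw [hg] at h1
    exact (tendsto_nhds_unique tendsto_const_nhds h1).symm
  · choose c hc0 hc using exists_lim hσ
    refine ⟨c, hc0, ?_, ?_⟩
    · have h2 : Tendsto (fun k => ∑ y, mu σ k y) atTop (𝓝 (∑ y : X, (c y : ℂ))) :=
        tendsto_finsetSum _ fun y _ => hc y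
      simp only [mu_sum, hσ.1.1] at h2
      have h3 := tendsto_nhds_unique h2 tendsto_const_nhds
      exact_mod_cast h3
    · rw [← sub_eq_zero]
      refine eq_zero_of_mu ?_ (fun n G s G' s' _ _ _ _ => ?_) fun y => ?_
      · have : ⇑(σ - ∑ y, (c y : ℂ) • τ y) = fun a => σ a - ∑ y, (c y : ℂ) * τ y a := by
          funext a
          simp only [LinearMap.sub_apply, LinearMap.sum_apply, LinearMap.smul_apply, smul_eq_mul]
        rw [this]
        exact hσ.1.continuous.sub (continuous_finsetSum _ fun y _ =>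
          continuous_const.mul (hτ y).1.continuous)
      · simp only [LinearMap.sub_apply, LinearMap.sum_apply, LinearMap.smul_apply]
        rw [hσ.2]
        congr 1
        exact Finset.sum_congr rfl fun y _ => by rw [(hτ y).2]
      · have h1 := (hc y).sub (comb (fun y => (c y : ℂ)) y)
        rw [sub_self] at h1
        exact h1

end Vale.Agent.N070.Model
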