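import Vale.Agent.P070.H443.Final
import Vale.Agent.N070.Defs
import Mathlib.Analysis.CStarAlgebra.Hom

/-! Towers inside the double commutant; approximation of the tower by the base algebra. -/

set_option linter.all false

namespace Vale.Agent.N070

open scoped InnerProductSpace ComplexOrder
open Filter Topology Vale.Agent.P070 Vale.Agent.P070.Key

universe u v w

section maxtower
variable {H : Type u} [NormedAddCommGroup H] [InnerProductSpace ℂ H] [CompleteSpace H]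

open Classical in
noncomputable def prs (A0 : StarSubalgebra ℂ (Op H))
    (G : StarSubalgebra ℂ (Op H) → Op H → Op H → Prop) : Ordinal.{u} → Op H × Op H :=
  WellFounded.fix (wellFounded_lt (α := Ordinal.{u})) fun a f =>
    if h : ∃ q : Op H × Op H, G
      (genSet A0 {x | ∃ (b : Ordinal.{u}) (hb : b < a), (f b hb).2 = x}) q.1 q.2
    then h.choose else (0, 0)

open Classical in
theorem prs_spec (A0 : StarSubalgebra ℂ (Op H))
    (G : StarSubalgebra ℂ (Op H) → Op H → Op H → Prop) (a : Ordinal.{u})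
    (h : ∃ q : Op H × Op H, G (genSet A0 ((fun b => (prs A0 G b).2) '' Set.Iio a)) q.1 q.2) :
    G (genSet A0 ((fun b => (prs A0 G b).2) '' Set.Iio a)) (prs A0 G a).1 (prs A0 G a).2 := by
  have hset : {x | ∃ (b : Ordinal.{u}) (_ : b < a), (prs A0 G b).2 = x} =
      (fun b => (prs A0 G b).2) '' Set.Iio a := by
    ext x
    simp
  have hunf : prs A0 G a = if h : ∃ q : Op H × Op H, G
      (genSet A0 {x | ∃ (b : Ordinal.{u}) (_ : b < a), (prs A0 G b).2 = x}) q.1 q.2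
    then h.choose else (0, 0) := by
    rw [prs, WellFounded.fix_eq]
  rw [← hset] at h ⊢
  rw [hunf, dif_pos h]
  exact h.choose_spec

theorem exists_max_tower (A0 : StarSubalgebra ℂ (Op H))
    (G : StarSubalgebra ℂ (Op H) → Op H → Op H → Prop) (hG : ∀ B k u, G B k u → u ∉ B) :
    ∃ (ι : Type (u + 1)) (_ : LinearOrder ι) (_ : WellFoundedLT ι) (k u : ι → Op H),
      (∀ i, G (gen A0 u (Set.Iio i)) (k i) (u i)) ∧ ¬ ∃ k' u', G (gen A0 u Set.univ) k' u' := by
  set p := prs A0 G with hp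
  set B : Ordinal.{u} → StarSubalgebra ℂ (Op H) :=
    fun a => genSet A0 ((fun b => (p b).2) '' Set.Iio a) with hB
  have hspec : ∀ a, (∃ q : Op H × Op H, G (B a) q.1 q.2) →
      G (B a) (p a).1 (p a).2 := fun a h => prs_spec A0 G a h
  have hex : ∃ a, ¬ ∃ q : Op H × Op H, G (B a) q.1 q.2 := by
    by_contra hcon
    push Not at hcon
    have hlt : ∀ a b : Ordinal.{u}, b < a → (p b).2 ≠ (p a).2 := by
      intro a b hba heq
      have h1 := hG _ _ _ (hspec a (hcon a))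
      apply h1
      rw [← heq]
      exact mem_genSet A0 ⟨b, hba, rfl⟩
    refine not_injective_of_ordinal (fun a => (p a).2) ?_
    intro a b hab
    rcases lt_trichotomy a b with h | h | h
    · exact absurd hab (hlt b a h)
    · exact h
    · exact absurd hab.symm (hlt a b h)
  obtain ⟨lam, hlam, hmin⟩ := WellFounded.has_min (wellFounded_lt (α := Ordinal.{u}))
    {a | ¬ ∃ q : Op H × Op H, G (B a) q.1 q.2} hex
  have hgood : ∀ a, a < lam → G (B a) (p a).1 (p a).2 := by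
    intro a ha
    apply hspec
    by_contra hcon
    exact hmin a hcon ha
  have himg : ∀ i : Set.Iio lam, (fun j : Set.Iio lam => (p j.1).2) '' Set.Iio i =
      (fun b => (p b).2) '' Set.Iio i.1 := by
    intro i
    ext x
    constructor
    · rintro ⟨j, hj, rfl⟩
      exact ⟨j.1, hj, rfl⟩
    · rintro ⟨b, hb, rfl⟩
      exact ⟨⟨b, Set.mem_Iio.2 (lt_trans (Set.mem_Iio.1 hb) (Set.mem_Iio.1 i.2))⟩, hb, rfl⟩
  have himg' : (fun j : Set.Iio lam => (p j.1).2) '' Set.univ =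
      (fun b => (p b).2) '' Set.Iio lam := by
    ext x
    constructor
    · rintro ⟨j, -, rfl⟩
      exact ⟨j.1, j.2, rfl⟩
    · rintro ⟨b, hb, rfl⟩
      exact ⟨⟨b, hb⟩, Set.mem_univ _, rfl⟩
  refine ⟨Set.Iio lam, inferInstance, inferInstance, fun i => (p i.1).1, fun i => (p i.1).2,
    fun i => ?_, ?_⟩
  · rw [gen_eq_genSet, himg i]
    exact hgood i.1 i.2
  · rintro ⟨k', u', h⟩
    rw [gen_eq_genSet, himg'] at h
    exact hlam ⟨(k', u'), h⟩

end maxtower

section apx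
variable {H : Type u} [NormedAddCommGroup H] [InnerProductSpace ℂ H] [CompleteSpace H]

theorem re_inner_mono {a b : Op H} (h : a ≤ b) (η : H) :
    (⟪η, a η⟫_ℂ).re ≤ (⟪η, b η⟫_ℂ).re := by
  have h1 : (0 : ℝ) ≤ RCLike.re ⟪η, (b - a) η⟫_ℂ :=
    ((ContinuousLinearMap.le_def a b).1 h).re_inner_nonneg_right η
  rw [sub_apply, inner_sub_right, map_sub] at h1
  simp only [RCLike.re_to_complex] at h1
  linarith

theorem inner_star_mul (x y : Op H) (η : H) : ⟪η, (star x * y) η⟫_ℂ = ⟪x η, y η⟫_ℂ := by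
  rw [mul_apply_eq_comp, ContinuousLinearMap.star_eq_adjoint,
    ContinuousLinearMap.adjoint_inner_right]

theorem re_inner_star_mul (x : Op H) (η : H) : (⟪η, (star x * x) η⟫_ℂ).re = ‖x η‖ ^ 2 := by
  rw [inner_star_mul, inner_self_eq_norm_sq_to_K]
  norm_cast

/-- `x* x` is dominated by an element of `B` with small expectation at `η`. -/
def Small (B : StarSubalgebra ℂ (Op H)) (η : H) (ε : ℝ) (x : Op H) : Prop :=
  ∃ z ∈ B, star x * x ≤ z ∧ (⟪η, z η⟫_ℂ).re ≤ ε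

variable {B : StarSubalgebra ℂ (Op H)} {η : H}

theorem Small.norm_sq_le {ε : ℝ} {x : Op H} (h : Small B η ε x) : ‖x η‖ ^ 2 ≤ ε := by
  obtain ⟨z, -, h1, h2⟩ := h
  have := re_inner_mono h1 η
  rw [re_inner_star_mul] at this
  linarith

theorem Small.mono {ε ε' : ℝ} {x : Op H} (h : Small B η ε x) (hε : ε ≤ ε') : Small B η ε' x := by
  obtain ⟨z, hz, h1, h2⟩ := h
  exact ⟨z, hz, h1, h2.trans hε⟩

theorem Small.add {ε ε' : ℝ} {a b : Op H} (ha : Small B η ε a) (hb : Small B η ε' b) :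
    Small B η (2 * ε + 2 * ε') (a + b) := by
  obtain ⟨z, hz, h1, h2⟩ := ha
  obtain ⟨z', hz', h1', h2'⟩ := hb
  refine ⟨(z + z) + (z' + z'), add_mem (add_mem hz hz) (add_mem hz' hz'), ?_, ?_⟩
  · have h3 : 0 ≤ star (a - b) * (a - b) := star_mul_self_nonneg _
    have h4 : star (a + b) * (a + b) + star (a - b) * (a - b) =
        (star a * a + star a * a) + (star b * b + star b * b) := by
      rw [star_add, star_sub]; noncomm_ring
    calc star (a + b) * (a + b) ≤ star (a + b) * (a + b) + star (a - b) * (a - b) :=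
          le_add_of_nonneg_right h3
      _ = _ := h4
      _ ≤ _ := add_le_add (add_le_add h1 h1) (add_le_add h1' h1')
  · simp only [add_apply, inner_add_right, Complex.add_re]
    linarith

theorem Small.mul_left {ε : ℝ} {a : Op H} (ha : Small B η ε a) (c : Op H) :
    Small B η (‖c‖ ^ 2 * ε) (c * a) := by
  obtain ⟨z, hz, h1, h2⟩ := ha
  refine ⟨((‖c‖ ^ 2 : ℝ) : ℂ) • z, B.smul_mem hz _, ?_, ?_⟩
  · have h3 : star c * c ≤ algebraMap ℝ (Op H) (‖c‖ ^ 2) := by
      have := (IsSelfAdjoint.star_mul_self c).le_algebraMap_norm_self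
      rwa [CStarRing.norm_star_mul_self, ← sq] at this
    have h4 := star_left_conjugate_le_conjugate h3 a
    have h5 : star (c * a) * (c * a) = star a * (star c * c) * a := by
      rw [star_mul]; noncomm_ring
    have h6 : star a * algebraMap ℝ (Op H) (‖c‖ ^ 2) * a = (‖c‖ ^ 2 : ℝ) • (star a * a) := by
      rw [Algebra.algebraMap_eq_smul_one, mul_smul_comm, mul_one, smul_mul_assoc]
    rw [h5, Complex.coe_smul]
    refine h4.trans ?_
    rw [h6]
    exact smul_le_smul_of_nonneg_left h1 (by positivity)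
  · rw [smul_apply, inner_smul_right, Complex.re_ofReal_mul]
    exact mul_le_mul_of_nonneg_left h2 (by positivity)

theorem Small.mul_right {ε : ℝ} {a y : Op H} (ha : Small B (y η) ε a) (hy : y ∈ B) :
    Small B η ε (a * y) := by
  obtain ⟨z, hz, h1, h2⟩ := ha
  refine ⟨star y * z * y, mul_mem (mul_mem (star_mem hy) hz) hy, ?_, ?_⟩
  · have h4 := star_left_conjugate_le_conjugate h1 y
    have h5 : star (a * y) * (a * y) = star y * (star a * a) * y := by
      rw [star_mul]; noncomm_ring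
    rw [h5]; exact h4
  · rw [mul_assoc, inner_star_mul]
    exact h2

theorem Small.of_mem {y : Op H} (hy : y ∈ B) : Small B η (‖y η‖ ^ 2) y :=
  ⟨star y * y, mul_mem (star_mem hy) hy, le_rfl, (re_inner_star_mul y η).le⟩

theorem Small.of_norm (a : Op H) : Small B η (‖a‖ ^ 2 * ‖η‖ ^ 2) a := by
  have := (Small.of_mem (B := B) (η := η) (one_mem B)).mul_left a
  rwa [mul_one] at this

/-- `x` is approximated by `B` at every vector. -/
def Apx (B : StarSubalgebra ℂ (Op H)) (x : Op H) : Prop :=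
  ∀ η : H, ∀ ε : ℝ, 0 < ε → ∃ y ∈ B, Small B η ε (x - y)

theorem Apx.of_mem {x : Op H} (hx : x ∈ B) : Apx B x := by
  intro η ε hε
  refine ⟨x, hx, ?_⟩
  rw [sub_self]
  refine (Small.of_mem (zero_mem B)).mono ?_
  simp [hε.le]

theorem Apx.add {a b : Op H} (ha : Apx B a) (hb : Apx B b) : Apx B (a + b) := by
  intro η ε hε
  obtain ⟨y, hy, h1⟩ := ha η (ε / 4) (by positivity)
  obtain ⟨y', hy', h2⟩ := hb η (ε / 4) (by positivity)
  refine ⟨y + y', add_mem hy hy', ?_⟩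
  have : a + b - (y + y') = (a - y) + (b - y') := by abel
  rw [this]
  exact (h1.add h2).mono (by linarith)

theorem Apx.mul {a b : Op H} (ha : Apx B a) (hb : Apx B b) : Apx B (a * b) := by
  intro η ε hε
  obtain ⟨y, hy, h1⟩ := hb η (ε / (4 * (‖a‖ ^ 2 + 1))) (by positivity)
  obtain ⟨y', hy', h2⟩ := ha (y η) (ε / 4) (by positivity)
  refine ⟨y' * y, mul_mem hy' hy, ?_⟩
  have : a * b - y' * y = a * (b - y) + (a - y') * y := by noncomm_ring
  rw [this]
  refine ((h1.mul_left a).add (h2.mul_right hy)).mono ?_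
  have h3 : ‖a‖ ^ 2 * (ε / (4 * (‖a‖ ^ 2 + 1))) ≤ ε / 4 := by
    rw [← mul_div_assoc, div_le_div_iff₀ (by positivity) (by positivity)]
    nlinarith [sq_nonneg ‖a‖]
  linarith

theorem Apx.small {x : Op H} (hx : Apx B x) (η : H) {δ : ℝ} (hδ : 0 < δ) :
    Small B η (4 * ‖x η‖ ^ 2 + δ) x := by
  obtain ⟨y, hy, h1⟩ := hx η (δ / 6) (by positivity)
  have h2 := h1.add (Small.of_mem hy)
  rw [sub_add_cancel] at h2
  refine h2.mono ?_
  have h3 := h1.norm_sq_le
  have h4 : ‖y η‖ ≤ ‖x η‖ + ‖(x - y) η‖ := by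
    have : y η = x η - (x - y) η := by rw [sub_apply]; abel
    rw [this]; exact norm_sub_le _ _
  have h5 : ‖y η‖ ^ 2 ≤ (‖x η‖ + ‖(x - y) η‖) ^ 2 := by gcongr
  nlinarith [sq_nonneg (‖x η‖ - ‖(x - y) η‖)]

theorem isClosed_apx : IsClosed {x : Op H | Apx B x} := by
  refine isClosed_of_closure_subset fun x hx η ε hε => ?_
  obtain ⟨x', hx', h1⟩ := Metric.mem_closure_iff.1 hx (min 1 (ε / (4 * (‖η‖ ^ 2 + 1))))
    (by positivity)
  rw [dist_eq_norm] at h1
  obtain ⟨y, hy, h2⟩ := hx' η (ε / 4) (by positivity)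
  refine ⟨y, hy, ?_⟩
  have : x - y = (x - x') + (x' - y) := by abel
  rw [this]
  refine ((Small.of_norm (x - x')).add h2).mono ?_
  have h3 : ‖x - x'‖ ≤ 1 := (h1.le.trans (min_le_left _ _))
  have h4 : ‖x - x'‖ ≤ ε / (4 * (‖η‖ ^ 2 + 1)) := (h1.le.trans (min_le_right _ _))
  have h5 : ‖x - x'‖ ^ 2 ≤ ε / (4 * (‖η‖ ^ 2 + 1)) := by nlinarith [norm_nonneg (x - x')]
  have h6 : ε / (4 * (‖η‖ ^ 2 + 1)) * ‖η‖ ^ 2 ≤ ε / 4 := by
    rw [div_mul_eq_mul_div, div_le_div_iff₀ (by positivity) (by positivity)]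
    nlinarith [sq_nonneg ‖η‖]
  have h7 : ‖x - x'‖ ^ 2 * ‖η‖ ^ 2 ≤ ε / (4 * (‖η‖ ^ 2 + 1)) * ‖η‖ ^ 2 := by gcongr
  linarith

/-- the algebra of approximable operators -/
def apxAlg (B : StarSubalgebra ℂ (Op H)) : StarSubalgebra ℂ (Op H) where
  carrier := {x | Apx B x ∧ Apx B (star x)}
  mul_mem' := fun {a b} ha hb => ⟨ha.1.mul hb.1, by rw [star_mul]; exact hb.2.mul ha.2⟩
  add_mem' := fun {a b} ha hb => ⟨ha.1.add hb.1, by rw [star_add]; exact ha.2.add hb.2⟩
  algebraMap_mem' := fun r => ⟨Apx.of_mem (B.algebraMap_mem r),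
    Apx.of_mem (star_mem (B.algebraMap_mem r))⟩
  star_mem' := fun {a} ha => ⟨ha.2, by rw [star_star]; exact ha.1⟩

theorem le_apxAlg : B ≤ apxAlg B := fun _ hx => ⟨Apx.of_mem hx, Apx.of_mem (star_mem hx)⟩

theorem isClosed_apxAlg : IsClosed (apxAlg B : Set (Op H)) :=
  (isClosed_apx (B := B)).inter ((isClosed_apx (B := B)).preimage continuous_star)

theorem cut_tendsto {k : Op H} (hk : 0 ≤ k) (inj : ∀ x : H, k x = 0 → x = 0) (η : H) {δ : ℝ}
    (hδ : 0 < δ) : ∃ n, ‖cutOp n k η‖ ≤ δ := by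
  obtain ⟨y, hy⟩ := KeyCon.dense_range hk.isSelfAdjoint inj η (ε := δ / 2) (by positivity)
  obtain ⟨n, hn⟩ := exists_pow_lt_of_lt_one (show (0 : ℝ) < δ / (2 * (‖y‖ + 1)) by positivity)
    (show (1 / 2 : ℝ) < 1 by norm_num)
  refine ⟨n, ?_⟩
  have h1 : cutOp n k η = cutOp n k (η - k y) + (cutOp n k * k) y := by
    rw [map_sub, mul_apply_eq_comp]; abel
  have h2 : ‖cutOp n k (η - k y)‖ ≤ ‖η - k y‖ := by
    refine ((cutOp n k).le_opNorm _).trans ?_
    exact mul_le_of_le_one_left (norm_nonneg _) (cutOp_norm_le n k)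
  have h3 : ‖(cutOp n k * k) y‖ ≤ (1 / 2) ^ n * ‖y‖ :=
    (cutOp n k * k).le_of_opNorm_le (norm_cutOp_mul_le n hk) y
  have h4 : (1 / 2 : ℝ) ^ n * ‖y‖ ≤ δ / 2 := by
    have h5 : (1 / 2 : ℝ) ^ n * ‖y‖ ≤ δ / (2 * (‖y‖ + 1)) * ‖y‖ := by gcongr
    refine h5.trans ?_
    rw [div_mul_eq_mul_div, div_le_div_iff₀ (by positivity) (by positivity)]
    nlinarith [norm_nonneg y]
  rw [h1]
  refine (norm_add_le _ _).trans ?_
  linarith

theorem apx_of_mul {A : StarSubalgebra ℂ (Op H)} (hA : IsClosed (A : Set (Op H)))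
    (hAS : A ≤ apxAlg B) {k u : Op H} (hk : k ∈ A) (hk0 : 0 ≤ k)
    (inj : ∀ x : H, k x = 0 → x = 0) (huk : u * k ∈ A) : Apx B u := by
  intro η ε hε
  set δ : ℝ := min 1 (ε / (20 * (‖u‖ ^ 2 + 1))) with hδ
  have hδ0 : 0 < δ := by positivity
  obtain ⟨n, hn⟩ := cut_tendsto hk0 inj η hδ0
  obtain ⟨g, hg, h1, -⟩ := exists_one_sub_cutOp A hA hk hk0 n
  have h2 : 1 - cutOp n k = k * star g := by
    have := congrArg star h1
    rwa [star_sub, star_one, (cutOp_isSelfAdjoint n k).star_eq, star_mul,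
      hk0.isSelfAdjoint.star_eq] at this
  have h3 : u * (1 - cutOp n k) ∈ A := by
    rw [h2, ← mul_assoc]; exact mul_mem huk (star_mem hg)
  obtain ⟨y, hy, h4⟩ := (hAS h3).1 η (ε / 4) (by positivity)
  have h5 := ((hAS (cutOp_mem A hA hk n)).1.small η hδ0).mul_left u
  refine ⟨y, hy, ?_⟩
  have : u - y = (u * (1 - cutOp n k) - y) + u * cutOp n k := by noncomm_ring
  rw [this]
  refine (h4.add h5).mono ?_
  have h6 : δ ≤ 1 := min_le_left _ _
  have h7 : δ ≤ ε / (20 * (‖u‖ ^ 2 + 1)) := min_le_right _ _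
  have h8 : ‖cutOp n k η‖ ^ 2 ≤ δ := by nlinarith [norm_nonneg (cutOp n k η)]
  have h9 : ‖u‖ ^ 2 * (4 * ‖cutOp n k η‖ ^ 2 + δ) ≤ ‖u‖ ^ 2 * (5 * (ε / (20 * (‖u‖ ^ 2 + 1)))) := by
    gcongr; linarith
  have h10 : ‖u‖ ^ 2 * (5 * (ε / (20 * (‖u‖ ^ 2 + 1)))) ≤ ε / 4 := by
    rw [← mul_div_assoc, ← mul_div_assoc, div_le_div_iff₀ (by positivity) (by positivity)]
    nlinarith [sq_nonneg ‖u‖]
  linarith

theorem tower_apx {ι : Type w} [LinearOrder ι] [WellFoundedLT ι] {A0 : StarSubalgebra ℂ (Op H)}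
    {k0 : Op H} {k u : ι → Op H} (hk0 : k0 ∈ A0) (hk0n : 0 ≤ k0)
    (inj0 : ∀ x : H, k0 x = 0 → x = 0)
    (h : ∀ i, k i ∈ gen A0 u (Set.Iio i) ∧ 0 ≤ k i ∧ (∀ x : H, k i x = 0 → x = 0) ∧
      u i * k0 ∈ gen A0 u (Set.Iio i) ∧ k i * u i ∈ gen A0 u (Set.Iio i)) :
    gen A0 u Set.univ ≤ apxAlg A0 := by
  have all : ∀ i, u i ∈ apxAlg A0 := by
    intro i
    induction i using WellFoundedLT.induction with
    | _ i ih =>
      have h1 : gen A0 u (Set.Iio i) ≤ apxAlg A0 :=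
        gen_le A0 u isClosed_apxAlg le_apxAlg fun j hj => ih j hj
      obtain ⟨a1, a2, a3, a4, a5⟩ := h i
      refine ⟨apx_of_mul (gen_isClosed A0 u _) h1 (le_gen A0 u _ hk0) hk0n inj0 a4,
        apx_of_mul (gen_isClosed A0 u _) h1 a1 a2 a3 ?_⟩
      have := star_mem a5
      rwa [star_mul, a2.isSelfAdjoint.star_eq] at this
  exact gen_le A0 u isClosed_apxAlg le_apxAlg fun j _ => all j

variable {L : Type v} [NormedAddCommGroup L] [InnerProductSpace ℂ L] [CompleteSpace L]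

theorem exists_sqrt_mem {A : StarSubalgebra ℂ (Op H)} (hA : IsClosed (A : Set (Op H))) (t : A)
    (ht : 0 ≤ (t : Op H)) : ∃ s : A, t = star s * s := by
  have := hA
  have hs : cfc Real.sqrt (t : Op H) ∈ A := cfc_mem (𝕜' := ℂ) (s := A) (hs := hA) _ t.2
  refine ⟨⟨_, hs⟩, Subtype.ext ?_⟩
  show (t : Op H) = star (cfc Real.sqrt (t : Op H)) * cfc Real.sqrt (t : Op H)
  have h1 : IsSelfAdjoint (cfc Real.sqrt (t : Op H)) := cfc_predicate _ _
  rw [h1.star_eq, ← cfc_mul _ _ _ Real.continuous_sqrt.continuousOn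
    Real.continuous_sqrt.continuousOn]
  have h2 : cfc (fun x : ℝ => Real.sqrt x * Real.sqrt x) (t : Op H) = cfc (fun x : ℝ => x) (t : Op H) :=
    cfc_congr fun x hx => Real.mul_self_sqrt (spectrum_nonneg_of_nonneg ht hx)
  rw [h2, cfc_id' ℝ (t : Op H) ht.isSelfAdjoint]

theorem nonneg_reflect {A : StarSubalgebra ℂ (Op H)} (hA : IsClosed (A : Set (Op H)))
    (σ : A →⋆ₐ[ℂ] Op L) (hσ : Function.Injective σ) (t : A) (hsa : IsSelfAdjoint (t : Op H))
    (ht : 0 ≤ σ t) : 0 ≤ (t : Op H) := by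
  have := hA
  have hsa' : IsSelfAdjoint t := Subtype.ext hsa
  have h1 := hsa'.map_spectrum_real σ hσ
  have h2 := hsa'.map_spectrum_real A.subtype Subtype.val_injective
  rw [StarOrderedRing.nonneg_iff_spectrum_nonneg (R := ℝ) _ hsa]
  intro x hx
  have h3 : x ∈ spectrum ℝ (σ t) := by
    rw [h1, ← h2]; exact hx
  exact spectrum_nonneg_of_nonneg ht h3

/-- A representation of an approximable algebra that is faithful on the base is faithful. -/
theorem inj_of_apx {A0 A : StarSubalgebra ℂ (Op H)} (hA0 : IsClosed (A0 : Set (Op H)))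
    (hA : IsClosed (A : Set (Op H))) (h0 : A0 ≤ A) (hS : A ≤ apxAlg A0) (σ : A →⋆ₐ[ℂ] Op L)
    (hσ : Function.Injective (σ.comp (StarSubalgebra.inclusion h0))) : Function.Injective σ := by
  rw [injective_iff_map_eq_zero]
  intro a ha
  apply Subtype.ext
  ext η
  have key : ∀ ε : ℝ, 0 < ε → ‖(a : Op H) η‖ ^ 2 ≤ 4 * ε := by
    intro ε hε
    obtain ⟨y, hy, hsm⟩ := (hS a.2).1 η ε hε
    have hn := hsm.norm_sq_le
    obtain ⟨z, hz, h1, h2⟩ := hsm
    set y' : A := ⟨y, h0 hy⟩ with hy'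
    set z' : A := ⟨z, h0 hz⟩ with hz'
    obtain ⟨s, hs⟩ := exists_sqrt_mem hA (z' - star (a - y') * (a - y')) (sub_nonneg.2 h1)
    have h3 : σ (z' - star y' * y') = star (σ s) * σ s := by
      have := congrArg σ hs
      rw [map_sub, map_mul, map_star, map_sub, ha, zero_sub, map_mul, map_star] at this
      rw [map_sub, map_mul, map_star, ← this]
      simp
    have hzsa : IsSelfAdjoint z := ((star_mul_self_nonneg _).trans h1).isSelfAdjoint
    have h4 : 0 ≤ z - star y * y := by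
      refine nonneg_reflect hA0 _ hσ ⟨z - star y * y, sub_mem hz (mul_mem (star_mem hy) hy)⟩
        (hzsa.sub (IsSelfAdjoint.star_mul_self y)) ?_
      have : (σ.comp (StarSubalgebra.inclusion h0))
          ⟨z - star y * y, sub_mem hz (mul_mem (star_mem hy) hy)⟩ = σ (z' - star y' * y') := rfl
      rw [this, h3]
      exact star_mul_self_nonneg _
    have h5 := re_inner_mono (sub_nonneg.1 h4) η
    rw [re_inner_star_mul] at h5
    have h6 : ‖(a : Op H) η‖ ≤ ‖y η‖ + ‖((a : Op H) - y) η‖ := by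
      have : (a : Op H) η = y η + ((a : Op H) - y) η := by rw [sub_apply]; abel
      rw [this]; exact norm_add_le _ _
    have h7 : ‖(a : Op H) η‖ ^ 2 ≤ (‖y η‖ + ‖((a : Op H) - y) η‖) ^ 2 := by gcongr
    nlinarith [sq_nonneg (‖y η‖ - ‖((a : Op H) - y) η‖)]
  have h8 : ‖(a : Op H) η‖ ^ 2 ≤ 0 := by
    refine le_of_forall_pos_le_add fun ε hε => ?_
    have := key (ε / 4) (by positivity)
    linarith
  have h9 : ‖(a : Op H) η‖ = 0 := by nlinarith [norm_nonneg ((a : Op H) η)]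
  exact norm_eq_zero.1 h9

end apx

section states
variable {A : Type u} [CStarAlgebra A]

attribute [local instance] CStarAlgebra.spectralOrder CStarAlgebra.spectralOrderedRing in
/-- The GNS construction for a state. -/
theorem gns {φ : A →ₗ[ℂ] ℂ} (hφ : IsState φ) :
    ∃ (L : Type u) (_ : NormedAddCommGroup L) (_ : InnerProductSpace ℂ L) (_ : CompleteSpace L)
      (σ : A →⋆ₐ[ℂ] Op L) (z : L), DenseRange (fun a => σ a z) ∧ ∀ a, ⟪z, σ a z⟫_ℂ = φ a := by
  let F : A →ₚ[ℂ] ℂ := PositiveLinearMap.mk₀ φ fun x hx => by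
    obtain ⟨y, rfl⟩ := CStarAlgebra.nonneg_iff_eq_star_mul_self.1 hx
    exact hφ.2 y
  obtain ⟨L, _, _, _, σ, z, hd, hz⟩ := H500.exists_gns F
  have h1 : σ 1 = 1 := by
    ext y
    refine hd.induction_on (p := fun y => σ 1 y = (1 : Op L) y) y ?_ fun a => ?_
    · exact isClosed_eq (σ 1).continuous continuous_id
    · show σ 1 (σ a z) = σ a z
      rw [← H500.mul_rep, one_mul]
  let σ' : A →⋆ₐ[ℂ] Op L :=
    { toFun := σ
      map_one' := h1
      map_mul' := map_mul σ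
      map_zero' := map_zero σ
      map_add' := map_add σ
      commutes' := fun c => by
        rw [Algebra.algebraMap_eq_smul_one, map_smul, h1, Algebra.algebraMap_eq_smul_one]
      map_star' := map_star σ }
  exact ⟨L, inferInstance, inferInstance, inferInstance, σ', z, hd, hz⟩

theorem norm_eq_one_of {L : Type v} [NormedAddCommGroup L] [InnerProductSpace ℂ L] {z : L}
    (h : ⟪z, z⟫_ℂ = 1) : ‖z‖ = 1 := by
  rw [inner_self_eq_norm_sq_to_K] at h
  have h2 : ((‖z‖ ^ 2 : ℝ) : ℂ) = ((1 : ℝ) : ℂ) := by push_cast; exact h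
  have h3 : ‖z‖ ^ 2 = 1 := Complex.ofReal_injective h2
  nlinarith [norm_nonneg z]

theorem IsState.sq_le {φ : A →ₗ[ℂ] ℂ} (hφ : IsState φ) (a : A) :
    ‖φ a‖ ^ 2 ≤ (φ (star a * a)).re ∧ ‖φ a‖ ≤ ‖a‖ := by
  obtain ⟨L, _, _, _, σ, z, -, hz⟩ := gns hφ
  have h1 : ‖z‖ = 1 := by
    apply norm_eq_one_of
    have := hz 1
    rwa [map_one, hφ.1] at this
  have h2 : ‖φ a‖ ≤ ‖σ a z‖ := by
    rw [← hz]
    refine (norm_inner_le_norm _ _).trans ?_
    rw [h1, one_mul]
  constructor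
  · rw [← hz (star a * a), map_mul, map_star, re_inner_star_mul]
    gcongr
  · refine h2.trans (((σ a).le_opNorm z).trans ?_)
    rw [h1, mul_one]
    exact NonUnitalStarAlgHom.norm_apply_le σ a

theorem IsState.continuous {φ : A →ₗ[ℂ] ℂ} (hφ : IsState φ) : Continuous φ :=
  AddMonoidHomClass.continuous_of_bound φ 1 fun a => by
    rw [one_mul]; exact (hφ.sq_le a).2

end states

section uniq
variable {H : Type u} [NormedAddCommGroup H] [InnerProductSpace ℂ H] [CompleteSpace H]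

/-- A vector state of the base has only one extension to an approximable algebra. -/
theorem state_eq_of_apx {A0 A : StarSubalgebra ℂ (Op H)} [hA : IsClosed (A : Set (Op H))]
    (h0 : A0 ≤ A) (hS : A ≤ apxAlg A0) {φ : A →ₗ[ℂ] ℂ} (hφ : IsState φ) {η : H} (hη : ‖η‖ = 1)
    (h : ∀ y (hy : y ∈ A0), φ ⟨y, h0 hy⟩ = ⟪η, y η⟫_ℂ) (a : A) : φ a = ⟪η, (a : Op H) η⟫_ℂ := by
  have key : ∀ ε : ℝ, 0 < ε → ‖φ a - ⟪η, (a : Op H) η⟫_ℂ‖ ^ 2 ≤ 4 * ε := by
    intro ε hε
    obtain ⟨y, hy, hsm⟩ := (hS a.2).1 η ε hε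
    have hn := hsm.norm_sq_le
    obtain ⟨z, hz, h1, h2⟩ := hsm
    set y' : A := ⟨y, h0 hy⟩ with hy'
    set z' : A := ⟨z, h0 hz⟩ with hz'
    obtain ⟨s, hs⟩ := exists_sqrt_mem hA (z' - star (a - y') * (a - y')) (sub_nonneg.2 h1)
    have h3 := hφ.2 s
    rw [← hs, map_sub, h z hz] at h3
    have h4 := (Complex.nonneg_iff.1 h3).1
    rw [Complex.sub_re] at h4
    have h5 := (hφ.sq_le (a - y')).1
    have h6 : ‖⟪η, ((a : Op H) - y) η⟫_ℂ‖ ≤ ‖((a : Op H) - y) η‖ := by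
      refine (norm_inner_le_norm _ _).trans ?_
      rw [hη, one_mul]
    have h7 : φ a - ⟪η, (a : Op H) η⟫_ℂ = φ (a - y') - ⟪η, ((a : Op H) - y) η⟫_ℂ := by
      rw [map_sub, h y hy, sub_apply, inner_sub_right]; ring
    rw [h7]
    have h8 := norm_sub_le (φ (a - y')) ⟪η, ((a : Op H) - y) η⟫_ℂ
    have h9 : ‖φ (a - y') - ⟪η, ((a : Op H) - y) η⟫_ℂ‖ ^ 2 ≤
        (‖φ (a - y')‖ + ‖((a : Op H) - y) η‖) ^ 2 := by gcongr; linarith
    nlinarith [sq_nonneg (‖φ (a - y')‖ - ‖((a : Op H) - y) η‖)]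
  have h8 : ‖φ a - ⟪η, (a : Op H) η⟫_ℂ‖ ^ 2 ≤ 0 := by
    refine le_of_forall_pos_le_add fun ε hε => ?_
    have := key (ε / 4) (by positivity)
    linarith
  have h9 : ‖φ a - ⟪η, (a : Op H) η⟫_ℂ‖ = 0 := by
    nlinarith [norm_nonneg (φ a - ⟪η, (a : Op H) η⟫_ℂ)]
  exact sub_eq_zero.1 (norm_eq_zero.1 h9)

end uniq

end Vale.Agent.N070
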