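import Vale.Agent.N070.Tower
import Mathlib.Analysis.InnerProductSpace.GramSchmidtOrtho

/-! Trace vectors: the vector state is tracial on the double commutant, and the double commutant
has no minimal projection. -/

set_option linter.all false

namespace Vale.Agent.N070

open scoped InnerProductSpace ComplexOrder
open Filter Topology Vale.Agent.P070 Vale.Agent.P070.Key

universe u v w

section
variable {D : Type u} [CStarAlgebra D]
  {H : Type v} [NormedAddCommGroup H] [InnerProductSpace ℂ H] [CompleteSpace H]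
  {θ : D →⋆ₐ[ℂ] Op H} {η : H}

/-- trace vectors -/
def IsTV (θ : D →⋆ₐ[ℂ] Op H) (η : H) : Prop :=
  ∀ a b, ⟪η, θ (a * b) η⟫_ℂ = ⟪η, θ (b * a) η⟫_ℂ

theorem IsTV.norm_star (h : IsTV θ η) (a : D) : ‖θ (star a) η‖ = ‖θ a η‖ := by
  have h1 := re_inner_star_mul (θ (star a)) η
  have h2 := re_inner_star_mul (θ a) η
  rw [← map_star, ← map_mul, star_star] at h1
  rw [← map_star, ← map_mul] at h2
  rw [h a (star a), h2] at h1
  exact ((pow_left_inj₀ (norm_nonneg _) (norm_nonneg _) two_ne_zero).1 h1).symm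

theorem IsTV.bound (h : IsTV θ η) (a b : D) : ‖θ (a * b) η‖ ≤ ‖b‖ * ‖θ a η‖ := by
  rw [← h.norm_star (a * b), star_mul, map_mul, mul_apply_eq_comp, ← h.norm_star a]
  refine ((θ (star b)).le_opNorm _).trans ?_
  gcongr
  exact (NonUnitalStarAlgHom.norm_apply_le θ (star b)).trans (_root_.norm_star b).le

theorem cyc_induction {p : H → Prop} (hp : IsClosed {v | p v}) (h : ∀ a, p (θ a η)) {v : H}
    (hv : v ∈ cyc θ.range η) : p v := by
  have h1 := cyc_closure hv
  refine closure_minimal (t := {v | p v}) ?_ hp h1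
  rintro _ ⟨_, ⟨a, rfl⟩, rfl⟩
  exact h a

theorem IsTV.exists_right (h : IsTV θ η) (b : D) :
    ∃ R : Op H, (∀ y ∈ θ.range, y * R = R * y) ∧ ∀ a, R (θ a η) = θ (a * b) η := by
  set V := cyc θ.range η with hV
  have hmem : ∀ a, θ a η ∈ V := fun a => mem_cyc (G := θ.range) ⟨a, rfl⟩ η
  let e : D →ₗ[ℂ] V :=
    { toFun := fun a => ⟨θ a η, hmem a⟩
      map_add' := fun a a' => Subtype.ext (by simp)
      map_smul' := fun c a => Subtype.ext (by simp) }
  have he : DenseRange e := by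
    intro v
    rw [closure_subtype]
    refine closure_mono ?_ (cyc_closure v.2)
    rintro _ ⟨_, ⟨a, rfl⟩, rfl⟩
    exact ⟨e a, ⟨a, rfl⟩, rfl⟩
  let f : D →ₗ[ℂ] H :=
    { toFun := fun a => θ (a * b) η
      map_add' := fun a a' => by simp [add_mul]
      map_smul' := fun c a => by simp }
  have hb : ∃ C, ∀ x, ‖f x‖ ≤ C * ‖e x‖ := ⟨‖b‖, fun x => h.bound x b⟩
  set R' : V →L[ℂ] H := f.extendOfNorm e with hR'
  have hR : ∀ a, R' (e a) = θ (a * b) η := fun a => LinearMap.extendOfNorm_eq he hb a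
  refine ⟨R'.comp V.orthogonalProjectionOnto, ?_, ?_⟩
  · rintro _ ⟨c, rfl⟩
    have hc : θ c ∈ θ.range := ⟨c, rfl⟩
    have hcomm := comm_proj (V := V) (cyc_invariant hc η) (cyc_invariant (star_mem hc) η)
    have h1 : ∀ w : V, θ c (R' w) = R' ⟨θ c w, cyc_invariant hc η _ w.2⟩ := by
      intro w
      refine he.induction_on (p := fun w => θ c (R' w) =
        R' ⟨θ c w, cyc_invariant hc η _ w.2⟩) w ?_ ?_
      · refine isClosed_eq (by fun_prop) ?_
        exact R'.continuous.comp (Continuous.subtype_mk (by fun_prop) _)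
      · intro a
        have h2 : (⟨θ c (e a), cyc_invariant hc η _ (e a).2⟩ : V) = e (c * a) :=
          Subtype.ext (by
            show θ c (θ a η) = θ (c * a) η
            rw [map_mul]; rfl)
        rw [h2, hR, hR, mul_assoc, map_mul θ c]
        rfl
    ext v
    show θ c (R' (V.orthogonalProjectionOnto v)) = R' (V.orthogonalProjectionOnto (θ c v))
    rw [h1]
    congr 1
    apply Subtype.ext
    have := congrArg (fun T : Op H => T v) hcomm
    exact this.symm
  · intro a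
    show R' (V.orthogonalProjectionOnto (θ a η)) = _
    have : V.orthogonalProjectionOnto (θ a η) = e a :=
      Submodule.orthogonalProjectionOnto_mem_subspace_eq_self (e a)
    rw [this, hR]

theorem IsTV.comm_base (h : IsTV θ η) {x : Op H} (hx : x ∈ cc θ.range) (b : D) :
    ⟪η, x (θ b η)⟫_ℂ = ⟪η, θ b (x η)⟫_ℂ := by
  obtain ⟨R, hR1, hR2⟩ := h.exists_right b
  have h1 : R (x η) = x (θ b η) := by
    have h2 := congrArg (fun T : Op H => T η) (mem_cc_iff.1 hx R hR1)
    have h3 : R η = θ b η := by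
      have := hR2 1
      rwa [map_one, one_mul] at this
    rw [← h3]; exact h2
  rw [← h1]
  refine cyc_induction (θ := θ) (η := η) (p := fun v => ⟪η, R v⟫_ℂ = ⟪η, θ b v⟫_ℂ)
    (isClosed_eq (by fun_prop) (by fun_prop)) ?_ (cc_apply hx η)
  intro a
  rw [hR2, h a b, map_mul]
  rfl

theorem inner_star_left (x : Op H) (v w : H) : ⟪star x v, w⟫_ℂ = ⟪v, x w⟫_ℂ := by
  rw [ContinuousLinearMap.star_eq_adjoint, ContinuousLinearMap.adjoint_inner_left]

theorem IsTV.norm_star_le (h : IsTV θ η) {y : Op H} (hy : y ∈ cc θ.range) :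
    ‖star y η‖ ≤ ‖y η‖ := by
  have h1 : ‖⟪star y η, star y η⟫_ℂ‖ ≤ ‖star y η‖ * ‖y η‖ := by
    refine cyc_induction (θ := θ) (η := η) (p := fun v => ‖⟪star y η, v⟫_ℂ‖ ≤ ‖v‖ * ‖y η‖)
      (isClosed_le (by fun_prop) (by fun_prop)) ?_ (cc_apply (star_mem hy) η)
    intro c
    rw [inner_star_left, h.comm_base hy c, ← inner_star_left, ← map_star, ← h.norm_star c]
    exact norm_inner_le_norm _ _
  rw [inner_self_eq_norm_sq_to_K, norm_pow] at h1
  simp only [Complex.coe_algebraMap, Complex.norm_real, norm_norm] at h1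
  by_cases h0 : ‖star y η‖ = 0
  · rw [h0]; exact norm_nonneg _
  · have h2 : 0 < ‖star y η‖ := lt_of_le_of_ne (norm_nonneg _) (Ne.symm h0)
    nlinarith

theorem IsTV.norm_star_cc (h : IsTV θ η) {y : Op H} (hy : y ∈ cc θ.range) :
    ‖star y η‖ = ‖y η‖ := by
  refine le_antisymm (h.norm_star_le hy) ?_
  have := h.norm_star_le (star_mem hy)
  rwa [star_star] at this

/-- the vector state of a trace vector is tracial on the double commutant -/
theorem IsTV.comm (h : IsTV θ η) {x y : Op H} (hx : x ∈ cc θ.range) (hy : y ∈ cc θ.range) :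
    ⟪η, (x * y) η⟫_ℂ = ⟪η, (y * x) η⟫_ℂ := by
  have key : ∀ b : D, ‖⟪η, (x * y) η⟫_ℂ - ⟪η, (y * x) η⟫_ℂ‖ ≤
      (‖star x η‖ + ‖x η‖) * ‖y η - θ b η‖ := by
    intro b
    have hb : y - θ b ∈ cc θ.range := sub_mem hy (le_cc ⟨b, rfl⟩)
    have h1 : ⟪η, (x * y) η⟫_ℂ - ⟪η, (y * x) η⟫_ℂ =
        ⟪star x η, (y - θ b) η⟫_ℂ - ⟪star (y - θ b) η, x η⟫_ℂ := by
      rw [inner_star_left, inner_star_left, sub_apply, sub_apply, map_sub, inner_sub_right,
        inner_sub_right, h.comm_base hx b]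
      simp only [mul_apply_eq_comp]
      ring
    rw [h1]
    refine (norm_sub_le _ _).trans ?_
    have h2 := norm_inner_le_norm (𝕜 := ℂ) (star x η) ((y - θ b) η)
    have h3 := norm_inner_le_norm (𝕜 := ℂ) (star (y - θ b) η) (x η)
    rw [h.norm_star_cc hb] at h3
    rw [sub_apply] at h2 h3
    rw [sub_apply]
    nlinarith
  have h4 : ‖⟪η, (x * y) η⟫_ℂ - ⟪η, (y * x) η⟫_ℂ‖ ≤ (‖star x η‖ + ‖x η‖) * ‖y η - y η‖ := by
    refine cyc_induction (θ := θ) (η := η) (p := fun v =>
      ‖⟪η, (x * y) η⟫_ℂ - ⟪η, (y * x) η⟫_ℂ‖ ≤ (‖star x η‖ + ‖x η‖) * ‖y η - v‖)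
      (isClosed_le continuous_const (by fun_prop)) key (cc_apply hy η)
  rw [sub_self, norm_zero, mul_zero] at h4
  exact sub_eq_zero.1 (norm_le_zero_iff.1 h4)

theorem pk_mem_cc {G : StarSubalgebra ℂ (Op H)} {k : Op H} (hk : k ∈ cc G) : pk k ∈ cc G := by
  refine mem_cc_iff.2 fun T hT => ?_
  exact mem_cc_iff.1 (pk_mem hk) T fun y hy => (mem_cc_iff.1 hy T hT).symm

theorem exists_orthonormal {W : Type*} [NormedAddCommGroup W] [InnerProductSpace ℂ W]
    (hW : ¬ FiniteDimensional ℂ W) : ∃ v : ℕ → W, Orthonormal ℂ v := by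
  let b := Module.Basis.ofVectorSpace ℂ W
  have hinf : Infinite (Module.Basis.ofVectorSpaceIndex ℂ W) := by
    by_contra hfin
    rw [not_infinite_iff_finite] at hfin
    exact hW (Module.Finite.of_basis b)
  have hli := b.linearIndependent.comp _
    (Infinite.natEmbedding (Module.Basis.ofVectorSpaceIndex ℂ W)).injective
  exact ⟨_, InnerProductSpace.gramSchmidtNormed_orthonormal hli⟩

/-- a cyclic subspace of a simple infinite-dimensional algebra is infinite-dimensional -/
theorem exists_orthonormal_orbit (hs : Naimark.IsSimpleAlg D) (hinf : ¬ FiniteDimensional ℂ D)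
    {z : H} (hz : z ≠ 0) : ∃ a : ℕ → D, Orthonormal ℂ fun i => θ (a i) z := by
  let o : D →ₗ[ℂ] H :=
    { toFun := fun a => θ a z
      map_add' := fun a a' => by simp
      map_smul' := fun c a => by simp }
  have hW : ¬ FiniteDimensional ℂ (LinearMap.range o) := by
    intro hfin
    apply hinf
    have hinv : ∀ a, ∀ w ∈ LinearMap.range o, (θ a : H →ₗ[ℂ] H) w ∈ LinearMap.range o := by
      rintro a _ ⟨c, rfl⟩
      refine ⟨a * c, ?_⟩
      show θ (a * c) z = θ a (θ c z)
      rw [map_mul]; rfl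
    let Φ : D →ₗ[ℂ] (LinearMap.range o →ₗ[ℂ] LinearMap.range o) :=
      { toFun := fun a => (θ a : H →ₗ[ℂ] H).restrict (hinv a)
        map_add' := fun a a' => by ext w; simp
        map_smul' := fun c a => by ext w; simp }
    have hker : ∀ a, a ∈ LinearMap.ker Φ ↔ ∀ c, θ (a * c) z = 0 := by
      intro a
      rw [LinearMap.mem_ker]
      constructor
      · intro ha c
        have := congrArg (fun T : LinearMap.range o →ₗ[ℂ] LinearMap.range o =>
          ((T ⟨o c, c, rfl⟩ : LinearMap.range o) : H)) ha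
        rw [map_mul]
        exact this
      · intro ha
        ext ⟨_, c, rfl⟩
        have := ha c
        rw [map_mul] at this
        exact this
    have hθc : Continuous θ := AddMonoidHomClass.continuous_of_bound θ 1 (by
      simpa only [one_mul] using NonUnitalStarAlgHom.norm_apply_le θ)
    have hcl : IsClosed (LinearMap.ker Φ : Set D) := by
      have : (LinearMap.ker Φ : Set D) = ⋂ c, {a | θ (a * c) z = 0} := by
        ext a
        simp only [SetLike.mem_coe, hker, Set.mem_iInter, Set.mem_setOf_eq]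
      rw [this]
      refine isClosed_iInter fun c => isClosed_eq ?_ continuous_const
      exact (ContinuousLinearMap.apply ℂ H z).continuous.comp
        (hθc.comp (continuous_id.mul continuous_const))
    rcases hs.2 (LinearMap.ker Φ) hcl (by
      intro a b hb
      rw [hker] at hb
      constructor
      · rw [hker]
        intro c
        rw [mul_assoc, map_mul, mul_apply_eq_comp, hb, map_zero]
      · rw [hker]
        intro c
        rw [mul_assoc, hb]) with h0 | h0
    · exact FiniteDimensional.of_injective Φ (LinearMap.ker_eq_bot.1 h0)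
    · exfalso
      have h1 : (1 : D) ∈ LinearMap.ker Φ := by rw [h0]; trivial
      have h2 := (hker 1).1 h1 1
      rw [one_mul, map_one] at h2
      exact hz h2
  obtain ⟨v, hv⟩ := exists_orthonormal hW
  choose a ha using fun i => (v i).2
  refine ⟨a, ?_⟩
  have : (fun i => θ (a i) z) = (LinearMap.range o).subtypeₗᵢ ∘ v := by
    funext i
    exact ha i
  rw [this]
  exact hv.comp_linearIsometry _

/-- the double commutant has no minimal projection -/
theorem inj_of_total (hs : Naimark.IsSimpleAlg D) (hinf : ¬ FiniteDimensional ℂ D)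
    (htot : ∀ v : H, (∀ η, IsTV θ η → ∀ a, ⟪θ a η, v⟫_ℂ = 0) → v = 0) {κ : Op H}
    (hκ : κ ∈ cc θ.range)
    (hdet : ∀ a ∈ θ.range, ∃ c : ℂ, ∀ z w : H, κ z = 0 → κ w = 0 → ⟪w, a z⟫_ℂ = c * ⟪w, z⟫_ℂ)
    (z : H) (hz : κ z = 0) : z = 0 := by
  by_contra hz0
  set p := pk κ with hp
  have hpc : p ∈ cc θ.range := pk_mem_cc hκ
  obtain ⟨η, hη, hpη⟩ : ∃ η, IsTV θ η ∧ p η ≠ 0 := by
    by_contra hcon
    push Not at hcon
    apply hz0
    refine htot z fun η hη a => ?_
    obtain ⟨R, hR1, hR2⟩ := hη.exists_right a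
    have h3 : R η = θ a η := by
      have := hR2 1
      rwa [map_one, one_mul] at this
    have h2 : R (p η) = p (R η) := congrArg (fun T : Op H => T η) (mem_cc_iff.1 hpc R hR1)
    rw [hcon η hη, map_zero, h3] at h2
    rw [← pk_of_ker hz, inner_pk, ← hp, ← h2, inner_zero_left]
  set z0 : H := ((‖z‖⁻¹ : ℝ) : ℂ) • z with hz0def
  have hz01 : ‖z0‖ = 1 := by rw [hz0def, norm_smul]; simp [hz0]
  have hκz0 : κ z0 = 0 := by rw [hz0def, map_smul, hz, smul_zero]
  have hz00 : z0 ≠ 0 := by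
    intro h
    rw [h, norm_zero] at hz01
    exact zero_ne_one hz01
  obtain ⟨a, ha⟩ := exists_orthonormal_orbit (θ := θ) hs hinf hz00
  have hform : ∀ i j, ∀ x y : H, κ x = 0 → κ y = 0 →
      ⟪θ (a i) x, θ (a j) y⟫_ℂ = (if i = j then (1 : ℂ) else 0) * ⟪x, y⟫_ℂ := by
    intro i j x y hx hy
    obtain ⟨c, hc⟩ := hdet (star (θ (a i)) * θ (a j))
      (mul_mem (star_mem ⟨a i, rfl⟩) ⟨a j, rfl⟩)
    have e : ∀ x y : H, ⟪x, (star (θ (a i)) * θ (a j)) y⟫_ℂ = ⟪θ (a i) x, θ (a j) y⟫_ℂ := by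
      intro x y
      rw [mul_apply_eq_comp, ContinuousLinearMap.star_eq_adjoint,
        ContinuousLinearMap.adjoint_inner_right]
    have h1 := hc z0 z0 hκz0 hκz0
    have h2 : ⟪z0, z0⟫_ℂ = 1 := by rw [inner_self_eq_norm_sq_to_K, hz01]; norm_num
    rw [e, h2, mul_one, orthonormal_iff_ite.1 ha i j] at h1
    rw [← e, hc y x hy hx, ← h1]
  set t : ℝ := ‖p η‖ with ht
  have ht0 : 0 < t := norm_pos_iff.2 hpη
  set g : ℕ → H := fun i => p (star (θ (a i)) η) with hg
  have hgk : ∀ i, κ (g i) = 0 := fun i => apply_pk κ _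
  have hgn : ∀ i, ‖g i‖ = t := by
    intro i
    have h1 : θ (a i) * p ∈ cc θ.range := mul_mem (le_cc ⟨a i, rfl⟩) hpc
    have h2 := hη.norm_star_cc h1
    rw [star_mul, hp, pk_star, ← hp] at h2
    have h3 := hform i i (p η) (p η) (apply_pk κ _) (apply_pk κ _)
    rw [if_pos rfl, one_mul, inner_self_eq_norm_sq_to_K, inner_self_eq_norm_sq_to_K] at h3
    have h4 : ‖θ (a i) (p η)‖ ^ 2 = ‖p η‖ ^ 2 := by exact_mod_cast h3
    have h5 : ‖θ (a i) (p η)‖ = ‖p η‖ :=
      (pow_left_inj₀ (norm_nonneg _) (norm_nonneg _) two_ne_zero).1 h4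
    exact h2.trans h5
  have hgg : ∀ i, ⟪g i, g i⟫_ℂ = ((t : ℂ)) ^ 2 := by
    intro i
    rw [inner_self_eq_norm_sq_to_K, hgn]; rfl
  have htc : (t : ℂ) ≠ 0 := by exact_mod_cast ht0.ne'
  have hon : Orthonormal ℂ fun i => ((t : ℂ)⁻¹) • θ (a i) (g i) := by
    rw [orthonormal_iff_ite]
    intro i j
    rw [inner_smul_left, inner_smul_right, hform i j _ _ (hgk i) (hgk j)]
    by_cases hij : i = j
    · subst hij
      rw [if_pos rfl, hgg, map_inv₀, Complex.conj_ofReal]
      field_simp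
    · rw [if_neg hij]; simp
  have hsum := hon.inner_products_summable η
  have hval : ∀ i, ‖⟪((t : ℂ)⁻¹) • θ (a i) (g i), η⟫_ℂ‖ ^ 2 = t ^ 2 := by
    intro i
    have h1 : ⟪θ (a i) (g i), η⟫_ℂ = ((t : ℂ)) ^ 2 := by
      have h2 : ⟪θ (a i) (g i), η⟫_ℂ = ⟪g i, star (θ (a i)) η⟫_ℂ := by
        rw [← inner_star_left, star_star]
      have h3 : p (g i) = g i := pk_of_ker (hgk i)
      rw [h2, ← hgg i]
      conv_lhs => rw [← h3, hp, ← inner_pk]
    rw [inner_smul_left, h1, map_inv₀, Complex.conj_ofReal]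
    have : ((t : ℂ))⁻¹ * (t : ℂ) ^ 2 = t := by field_simp
    rw [this, Complex.norm_real, Real.norm_of_nonneg ht0.le]
  simp only [hval] at hsum
  have := Finite.of_summable_const (by positivity : (0 : ℝ) < t ^ 2) hsum
  exact not_finite ℕ

end

end Vale.Agent.N070
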